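import Vale.Agent.P146.H518.End
import Vale.Agent.P146.H260.Dblc17
import Vale.Agent.P146.H877.ContigK
import Vale.Agent.P146.H9.Mod2

/-!
# P146: the sharp law without field with its constants

The constant of the sharp law is the limit of `(Vx β x - P0 β) / x ^ 5` and the centering is
`n (log 2 + P0 β)`.
-/

open Set Filter Topology MeasureTheory

namespace Vale.Agent.P146.H892

open Vale.Agent.P146

/-- **The sharp law without field, with its constants.** -/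
theorem law0_two {β : ℝ} (hβ : 1 < β) {A : ℝ} (hA0 : 0 < A)
    (hA : Tendsto (fun x => (Sh.Vx β x - Sh.P0 β) / x ^ 5) (𝓝[>] 0) (𝓝 A)) {a : ℝ}
    (ha : a < 2 / 17) {ε : ℝ} (hε : 0 < ε) : ∃ δ : ℝ, 0 < δ ∧ ∀ᶠ n : ℕ in atTop,
      ∀ x : ℝ, (n : ℝ) ^ (-a) ≤ x → x ≤ δ →
        |x * (H9.Phn n β x 0 - n * (Real.log 2 + Sh.P0 β)) - A * n * x ^ 6| ≤ ε * n * x ^ 6 := by
  obtain ⟨C, hC, hD⟩ := H260.D17.dblc17 β
  have hT := H518.tmh_of_dblc hβ.le hC hD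
  have hS := H260.Asm.sharp_g hβ (by norm_num : (0 : ℝ) ≤ 2 / 3)
    (by norm_num : (2 / 17 : ℝ) * (5 + 2 / 3) = 1 - 1 / 3) (by norm_num) (by norm_num) hT hA0 hA
  obtain ⟨δ, hδ, hev⟩ := hS ε hε a ha
  refine ⟨δ, hδ, ?_⟩
  filter_upwards [hev, eventually_ge_atTop 1] with n hn hn1 x hx hxδ
  have hn0 : (0 : ℝ) < n := by exact_mod_cast hn1
  have hx0 : 0 < x := lt_of_lt_of_le (Real.rpow_pos_of_pos hn0 _) hx
  have h5 := hn.1 x hx hxδ
  have h6 := H877.log_center n β x (n * Sx.pv β)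
  rw [← H877.LPhi_zero] at h6
  have h7 : x * (H9.Phn n β x 0 - n * (Real.log 2 + Sh.P0 β)) =
      Real.log (∫ g, Real.exp (x * (freeEnergy n β g - n * Sx.pv β)) ∂(disorder n)) := by
    rw [← Sh.shfin_pv]
    unfold H9.Phn
    rw [mul_sub, mul_div_cancel₀ _ hx0.ne']
    linarith
  rw [h7]
  exact h5

/-- the lower bound of the free energy without field -/
theorem law0_low {β : ℝ} (hβ : 1 < β) {A : ℝ} (hA0 : 0 < A)
    (hA : Tendsto (fun x => (Sh.Vx β x - Sh.P0 β) / x ^ 5) (𝓝[>] 0) (𝓝 A)) {a : ℝ}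
    (ha : a < 2 / 17) {ε : ℝ} (hε : 0 < ε) : ∃ δ : ℝ, 0 < δ ∧ ∀ᶠ n : ℕ in atTop,
      ∀ x : ℝ, (n : ℝ) ^ (-a) ≤ x → x ≤ δ →
        n * (Real.log 2 + Sh.P0 β + (A - ε) * x ^ 5) ≤ H9.Phn n β x 0 := by
  obtain ⟨δ, hδ, hev⟩ := law0_two hβ hA0 hA ha hε
  refine ⟨δ, hδ, ?_⟩
  filter_upwards [hev, eventually_ge_atTop 1] with n hn hn1 x hx hxδ
  have hn0 : (0 : ℝ) < n := by exact_mod_cast hn1
  have hx0 : 0 < x := lt_of_lt_of_le (Real.rpow_pos_of_pos hn0 _) hx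
  have h1 := (abs_le.1 (hn x hx hxδ)).1
  have h2 : x * (n * ((A - ε) * x ^ 5)) ≤
      x * (H9.Phn n β x 0 - n * (Real.log 2 + Sh.P0 β)) := by
    have e : x * (n * ((A - ε) * x ^ 5)) = A * n * x ^ 6 - ε * n * x ^ 6 := by ring
    linarith
  have h3 := le_of_mul_le_mul_left h2 hx0
  have e : n * (Real.log 2 + Sh.P0 β + (A - ε) * x ^ 5) =
      n * (Real.log 2 + Sh.P0 β) + n * ((A - ε) * x ^ 5) := by ring
  linarith

end Vale.Agent.P146.H892
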