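import Vale.Agent.P146.H892.StartL
import Vale.Agent.P146.H892.Law0A
import Vale.Agent.P146.H75.LcPsiG
import Vale.Agent.P146.H470.LcP

/-!
# P146: the start of the sharp flow from the far part of the amplitude law

`start_far`: the start of the sharp flow for all small exponents `q` from the far part of the
entropy of the amplitude law (`LcFarW`); the near part is Guerra's bound with two exponents.
`start_far2`: the same from the two halves of the far part.
-/

open Set Filter Topology MeasureTheory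

namespace Vale.Agent.P146.H892

open Vale.Agent.P146

/-- **The start of the sharp flow from the far part of the amplitude law.** -/
theorem start_far {β b₁ b₀ : ℝ} (hβ : 1 < β) (hb₀ : 0 < b₀) (hb : 3 * b₀ < b₁)
    (hb₁ : b₁ ≤ 1 / 100)
    (h : ∃ q0 : ℝ, 0 < q0 ∧ ∀ q : ℝ, 0 < q → q ≤ q0 →
      H470.LcFarW β b₁ b₀ (23 * q) (10 * q) q (1 / 10) (1 / 4) q q q q (40 * q)) :
    ∃ q0 : ℝ, 0 < q0 ∧ ∀ q : ℝ, 0 < q → q ≤ q0 →
      H178.StartH β b₁ (23 * q) (10 * q) (24 * q) fun n => H9.Phn n β := by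
  obtain ⟨q1, hq1, h⟩ := h
  obtain ⟨A, hA0, hA⟩ := Sh.lim_A hβ
  refine start_all hβ hb₀ hb (by linarith) ⟨min q1 (b₀ / 82), lt_min hq1 (by positivity),
    fun q hq hqq => ⟨q, 1 / 10, 1 / 4, q, hq, by norm_num, by norm_num, hq.le, ?_, ?_, ?_⟩⟩
  · have : q ≤ b₀ / 82 := hqq.trans (min_le_right _ _)
    linarith
  · have : q ≤ b₀ / 82 := hqq.trans (min_le_right _ _)
    linarith
  · have e1 : q ≤ q1 := hqq.trans (min_le_left _ _)
    have e2 : q ≤ b₀ / 82 := hqq.trans (min_le_right _ _)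
    exact H470.lcampW_br (by linarith) hq (by linarith) (by linarith) (by linarith) (by norm_num)
      (h q hq e1)
      (H470.lcBrW_of hβ (H75.W.psiUp hβ hA) (fun _ hε => law0_low hβ hA0 hA (by linarith) hε) hb₀
        (by positivity) (by norm_num) (by norm_num) hq)

/-- **The start of the sharp flow from the two halves of the far part of the amplitude law.** -/
theorem start_far2 {β b₁ b₀ : ℝ} (hβ : 1 < β) (hb₀ : 0 < b₀) (hb : 3 * b₀ < b₁)
    (hb₁ : b₁ ≤ 1 / 100)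
    (h1 : ∃ q0 : ℝ, 0 < q0 ∧ ∀ q : ℝ, 0 < q → q ≤ q0 →
      H470.LcFar1 β b₁ b₀ (23 * q) (10 * q) q (1 / 10) (1 / 4) q q q q (40 * q) (6 * q) (4 * q))
    (h2 : ∃ q0 : ℝ, 0 < q0 ∧ ∀ q : ℝ, 0 < q → q ≤ q0 →
      H470.LcFar2 β b₁ b₀ (23 * q) (10 * q) q (1 / 10) (1 / 4) q q q q (40 * q) (6 * q) (4 * q)) :
    ∃ q0 : ℝ, 0 < q0 ∧ ∀ q : ℝ, 0 < q → q ≤ q0 →
      H178.StartH β b₁ (23 * q) (10 * q) (24 * q) fun n => H9.Phn n β := by
  obtain ⟨q1, hq1, h1⟩ := h1
  obtain ⟨q2, hq2, h2⟩ := h2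
  exact start_far hβ hb₀ hb hb₁ ⟨min q1 q2, lt_min hq1 hq2, fun q hq hqq =>
    H470.lcFarW_of (h1 q hq (hqq.trans (min_le_left _ _)))
      (h2 q hq (hqq.trans (min_le_right _ _)))⟩

end Vale.Agent.P146.H892
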