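import Vale.Agent.P146.H892.StartH
import Vale.Agent.P146.H178.FlowH
import Vale.Agent.P146.H320.ConcSK
import Vale.Agent.P146.H877.ContigK
import Vale.Agent.P146.H499.Bd17
import Vale.Agent.P146.H260.Dblc17

/-!
# P146: the start of the sharp flow for the Sherrington-Kirkpatrick model with a private field

`startM`: for `Φ(x, v) = x⁻¹ log E exp (x F_v)` the only hypothesis of `startH_of` which is left is
`LCin`.
-/

open Set Filter Topology MeasureTheory

namespace Vale.Agent.P146.H892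

open Vale.Agent.P146 Vale.Agent.P146.H122

/-- Contiguity for the natural functional. -/
theorem ctg_sk {β : ℝ} (hβ : 0 < β) : Ctg β fun n x v => H9.Phn n β x v := by
  intro n hn x v hx hv hxv
  have h1 := H877.contig_At hβ hn hx hv hxv
  have e1 : At β (fun n x v => H9.Phn n β x v) n x v = H877.At β n x v := by
    rw [H9.At_eq]
    rfl
  have e2 := H9.Phn_kap β n hx (show 0 < 2 * x by positivity)
  have e3 : x * (H9.Phn n β (2 * x) 0 - H9.Phn n β x 0) =
      H877.kap β n (2 * x) / 2 - H877.kap β n x := by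
    rw [e2]
    field_simp
  rw [e1]
  simp only
  rw [e3]
  exact h1

/-- The sharp law for the natural functional without field. -/
theorem law0_sk {β : ℝ} (hβ : 1 < β) : ∃ Λ : ℝ, 0 < Λ ∧ ∀ a : ℝ, a < 2 / 17 →
    Law0 a Λ fun n x v => H9.Phn n β x v := by
  obtain ⟨Λ, -, h⟩ := H499.T29.bounds17 fun β _ => H260.D17.dblc17 β
  obtain ⟨hΛ, p, D, -, h3, -⟩ := h β hβ
  refine ⟨Λ β, hΛ, fun a ha => ⟨fun n => n * p, fun ε hε => ?_⟩⟩
  obtain ⟨δ, hδ, hev⟩ := h3 ε hε (max a (1 / 17)) (by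
    rw [max_lt_iff]
    exact ⟨ha, by norm_num⟩)
  refine ⟨δ, hδ, ?_⟩
  filter_upwards [hev, eventually_ge_atTop 1] with n hn hn1 x hx hxδ
  have hn0 : (0 : ℝ) < n := by exact_mod_cast hn1
  have hn1' : (1 : ℝ) ≤ n := by exact_mod_cast hn1
  have hx0 : 0 < x := lt_of_lt_of_le (Real.rpow_pos_of_pos hn0 _) hx
  have h4 : (n : ℝ) ^ (-(max a (1 / 17))) ≤ x :=
    (Real.rpow_le_rpow_of_exponent_le hn1' (neg_le_neg (le_max_left _ _))).trans hx
  have h5 := hn.1 x h4 hxδ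
  have h6 := H877.log_center n β x (n * p)
  rw [← H877.LPhi_zero] at h6
  have h7 : x * (H9.Phn n β x 0 - n * p) =
      Real.log (∫ g, Real.exp (x * (freeEnergy n β g - n * p)) ∂(disorder n)) := by
    unfold H9.Phn
    rw [mul_sub, mul_div_cancel₀ _ hx0.ne']
    linarith
  show |x * (H9.Phn n β x 0 - n * p) - Λ β * n * x ^ 6| ≤ ε * n * x ^ 6
  rw [h7]
  exact h5

/-- **The start for the Sherrington-Kirkpatrick model**, general exponents. -/
theorem startM_gen {β b₁ b₀ s d d0 : ℝ} (hβ : 1 < β) (hb₀ : 0 < b₀) (hb : 3 * b₀ < b₁)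
    (hba : b₁ < 2 / 17) (hd0 : 0 < d0) (hd0b : d0 < 2 * b₀) (hdd : d0 < d) (hdb : d < 2 * b₁)
    (hLC : LCin β b₁ b₀ d0 s (fun n x v => H9.Phn n β x v) fun n x v => H9.KV n β x v) :
    H178.StartH β b₁ d0 s d fun n x v => H9.Phn n β x v := by
  obtain ⟨Λ, hΛ, hlaw⟩ := law0_sk hβ
  have hβ0 : 0 < β := by linarith
  exact startH_of (a := (b₁ + 2 / 17) / 2) hβ hb₀ hb (by linarith) (by linarith) hd0 hd0b hdd hdb
    hΛ (fun n _ x hx hx1 => H320.Conc.Phn_conc n β hx (by linarith))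
    (fun n _ x hx _ v _ => H9.hasDerivAt_Phn n β v hx)
    (fun n _ x hx _ v _ => H9.Phn_zero_le n β v hx.le)
    (fun n _ x hx hx1 v hv => H9.Phn_le n β hx (by linarith) hv)
    (fun n _ x y hx hxy _ v _ => (H9.Phn_sub_bd n β v hx hxy).2)
    (ctg_sk hβ0) (hlaw _ (by linarith)) hLC

/-- **The start for the Sherrington-Kirkpatrick model**, `b₁ = 1 / 20`. -/
theorem startM {β s d d0 : ℝ} (hβ : 1 < β) (hd0 : 0 < d0) (hd0b : d0 < 1 / 40) (hdd : d0 < d)
    (hdb : d < 1 / 10)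
    (hLC : LCin β (1 / 20) (1 / 80) d0 s (fun n x v => H9.Phn n β x v)
      fun n x v => H9.KV n β x v) :
    H178.StartH β (1 / 20) d0 s d fun n x v => H9.Phn n β x v :=
  startM_gen hβ (by norm_num) (by norm_num) (by norm_num) hd0 (by linarith) hdd (by linarith) hLC

/-- **The response** from the entropy bounds alone. -/
theorem resp_of {β b₁ b₀ : ℝ} (hβ : 1 < β) (hb₀ : 0 < b₀) (hb : 3 * b₀ < b₁)
    (hba : b₁ < 2 / 17)
    (h : ∀ e : ℝ, 0 < e → ∃ s s' d0 d : ℝ, 0 < s ∧ s < s' ∧ 0 < d0 ∧ d0 < d ∧ s' + d ≤ e ∧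
      d0 < 2 * b₀ ∧ d < 2 * b₁ ∧
      LCin β b₁ b₀ d0 s (fun n x v => H9.Phn n β x v) (fun n x v => H9.KV n β x v) ∧
      H178.KDiffH β b₁ e s s' d (fun n x v => H9.Phn n β x v) fun n x v => H9.KV n β x v) :
    H178.Resp b₁ fun n x v => H877.At β n x v := by
  have hβ0 : 0 < β := by linarith
  have key := H178.resp_of_kdiffH (b₁ := b₁) hβ0 (by linarith)
    (Φ := fun n x v => H9.Phn n β x v) (K := fun n x v => H9.KV n β x v)
    (fun n _ x hx hx1 => H320.Conc.Phn_conc n β hx (by linarith))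
    (fun n _ x hx _ v _ => H9.hasDerivAt_Phn n β v hx) (fun e he => by
      obtain ⟨s, s', d0, d, hs, hss, hd0, hdd, hsd, h1, h2, h3, h4⟩ := h e he
      exact ⟨s, s', d0, d, hs, hss, hd0, hdd, hsd,
        startM_gen hβ hb₀ hb hba hd0 h1 hdd h2 h3, h4⟩)
  have e1 : (At β fun n x v => H9.Phn n β x v) = fun n x v => H877.At β n x v := by
    funext n x v
    rw [H9.At_eq]
    rfl
  rw [← e1]
  exact key

end Vale.Agent.P146.H892
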