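import Vale.Agent.P146.H892.Start2

/-!
# P146: the anchor, descending with a moving field

`At β Φ n y v ≥ 1 + n^(-s) y²` for the field `v = min (c₁ y₁³ y², n^(-d₀) y³)`, from `y₁ = n^(-b₀)`
down to `n^(-b₁)`: the history of the flow bounds the responses at all the smaller fields.  Then the
start of the sharp flow for the secants over `(V, 2 V)`.
-/

open Set Filter Topology

namespace Vale.Agent.P146.H892

open Vale.Agent.P146.H122 Vale.Agent.P146.H178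

/-- **The flow with its history.** -/
theorem flowH {Φ K : ℝ → ℝ → ℝ} {L L' V w : ℝ → ℝ} {c x0 y1 ρ η : ℝ} (hx0 : 0 < x0) (hρ : 1 < ρ)
    (hη : 0 < η) (hc : 0 < c)
    (cv : ∀ x ∈ Icc x0 y1, ConcaveOn ℝ (Ici 0) (Φ x))
    (dx : ∀ x ∈ Icc x0 y1, ∀ v, 0 ≤ v → HasDerivAt (fun y => Φ y v) (K x v / x ^ 2) x)
    (hL : ∀ x ∈ Icc x0 y1, HasDerivAt L (L' x) x) (hL0 : ∀ x ∈ Icc x0 y1, 0 < L x)
    (hV : MonotoneOn V (Icc x0 y1)) (hw : MonotoneOn w (Icc x0 y1))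
    (hw0 : ∀ x ∈ Icc x0 y1, 0 ≤ w x) (hwV : ∀ x ∈ Icc x0 y1, w x < V x)
    (hE : ∀ x ∈ Icc x0 y1, ∀ y ∈ Icc x0 y1, x ≤ y → y ≤ ρ * x →
      (∀ z ∈ Icc y y1, 1 + L z ≤ c * sec (Φ z) (w z) (V z)) →
      1 + (1 - η) * L x ≤ c * sec (Φ x) (w y) (V y) → c * sec (Φ x) (w y) (V y) ≤ 1 + L x →
      c * ((K x (V y) - K x (w y)) / (V y - w y)) / x ^ 2 ≤ L' x)
    (start : 1 + L y1 ≤ c * sec (Φ y1) (w y1) (V y1)) :
    ∀ x ∈ Icc x0 y1, 1 + L x ≤ c * sec (Φ x) (w x) (V x) := by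
  have block : ∀ x ∈ Icc x0 y1, ∀ y ∈ Icc x0 y1, x ≤ y → y ≤ ρ * x →
      (∀ z ∈ Icc y y1, 1 + L z ≤ c * sec (Φ z) (w z) (V z)) →
      1 + L x ≤ c * sec (Φ x) (w x) (V x) := by
    intro x hx y hy hxy hyx hist
    have hs := hist y ⟨le_rfl, hy.2⟩
    have hsub : Icc x y ⊆ Icc x0 y1 := Icc_subset_Icc hx.1 hy.2
    have hwVy := hwV y hy
    have hwy := hw0 y hy
    have h1 := barrier (α := fun z => c * sec (Φ z) (w y) (V y) - 1) (L := L)
      (α' := fun z => c * ((K z (V y) - K z (w y)) / (V y - w y)) / z ^ 2) (L' := L') hxy hη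
      ?_ (fun z hz => hL z (hsub hz)) (fun z hz => hL0 z (hsub hz)) ?_ (by linarith)
    · have h2 : sec (Φ x) (w y) (V y) ≤ sec (Φ x) (w x) (V x) :=
        sec_anti (cv x hx) (hw0 x hx) (hw hx hy hxy) (hV hx hy hxy) (hwV x hx) hwVy
      have h3 := mul_le_mul_of_nonneg_left h2 hc.le
      linarith
    · intro z hz
      have d1 := dx z (hsub hz) (V y) (hwy.trans hwVy.le)
      have d2 := dx z (hsub hz) (w y) hwy
      have d3 := ((d1.sub d2).div_const (V y - w y)).const_mul c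
      have d4 := d3.sub_const 1
      have e : c * ((K z (V y) / z ^ 2 - K z (w y) / z ^ 2) / (V y - w y)) =
          c * ((K z (V y) - K z (w y)) / (V y - w y)) / z ^ 2 := by ring
      rw [e] at d4
      exact d4
    · intro z hz h1 h2
      have hzy : y ≤ ρ * z := hyx.trans (mul_le_mul_of_nonneg_left hz.1 (by linarith))
      exact hE z (hsub hz) y hy hz.2 hzy hist (by linarith) (by linarith)
  have hρ0 : 0 < ρ := by linarith
  have key : ∀ k : ℕ, ∀ x ∈ Icc x0 y1, y1 ≤ ρ ^ k * x → 1 + L x ≤ c * sec (Φ x) (w x) (V x) := by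
    intro k
    induction k with
    | zero =>
      intro x hx h
      rw [pow_zero, one_mul] at h
      have : x = y1 := le_antisymm hx.2 h
      rw [this]
      exact start
    | succ k ih =>
      intro x hx h
      obtain ⟨y, hy⟩ : ∃ y, y = min (ρ * x) y1 := ⟨_, rfl⟩
      have hxp : 0 < x := lt_of_lt_of_le hx0 hx.1
      have hyx : y ≤ ρ * x := by rw [hy]; exact min_le_left _ _
      have hxy : x ≤ y := by
        rw [hy]
        exact le_min (by nlinarith) hx.2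
      have hyI : y ∈ Icc x0 y1 := ⟨hx.1.trans hxy, by rw [hy]; exact min_le_right _ _⟩
      refine block x hx y hyI hxy hyx fun z hz => ih z ⟨hyI.1.trans hz.1, hz.2⟩ ?_
      have h2 : 1 ≤ ρ ^ k := one_le_pow₀ hρ.le
      have hz0 : 0 < z := lt_of_lt_of_le (lt_of_lt_of_le hxp hxy) hz.1
      rcases le_total (ρ * x) y1 with h1 | h1
      · rw [min_eq_left h1] at hy
        have h3 : ρ ^ (k + 1) * x = ρ ^ k * (ρ * x) := by ring
        rw [h3, ← hy] at h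
        exact h.trans (mul_le_mul_of_nonneg_left hz.1 (by positivity))
      · rw [min_eq_right h1] at hy
        have h3 : y1 ≤ z := by rw [← hy]; exact hz.1
        nlinarith
  intro x hx
  have hxp : 0 < x := lt_of_lt_of_le hx0 hx.1
  obtain ⟨k, hk⟩ := pow_unbounded_of_one_lt (y1 / x) hρ
  exact key k x hx (by rw [div_lt_iff₀ hxp] at hk; exact hk.le)

/-- The field of the anchor. -/
noncomputable def VA (c₁ D y1 y : ℝ) : ℝ := min (c₁ * y1 ^ 3 * y ^ 2) (D * y ^ 3)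

lemma VA_pos {c₁ D y1 y : ℝ} (hc : 0 < c₁) (hD : 0 < D) (hy1 : 0 < y1) (hy : 0 < y) :
    0 < VA c₁ D y1 y := lt_min (by positivity) (by positivity)

lemma VA_mono {c₁ D y1 x y : ℝ} (hc : 0 < c₁) (hD : 0 < D) (hy1 : 0 < y1) (hx : 0 < x)
    (hxy : x ≤ y) : VA c₁ D y1 x ≤ VA c₁ D y1 y := by
  unfold VA
  exact min_le_min
    (mul_le_mul_of_nonneg_left (pow_le_pow_left₀ hx.le hxy 2) (by positivity))
    (mul_le_mul_of_nonneg_left (pow_le_pow_left₀ hx.le hxy 3) hD.le)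

/-- twice the field at `y` is at most the field at `2 x`, `y ≤ 5 x / 4` -/
lemma VA_two {c₁ D y1 x y : ℝ} (hc : 0 < c₁) (hD : 0 < D) (hy1 : 0 < y1) (hx : 0 < x)
    (hxy : x ≤ y) (hyx : y ≤ 5 / 4 * x) : 2 * VA c₁ D y1 y ≤ VA c₁ D y1 (2 * x) := by
  have hy0 : 0 < y := lt_of_lt_of_le hx hxy
  have h2 : y ^ 2 ≤ 25 / 16 * x ^ 2 := by
    have := pow_le_pow_left₀ hy0.le hyx 2
    linarith [show (5 / 4 * x) ^ 2 = 25 / 16 * x ^ 2 by ring]
  have h3 : y ^ 3 ≤ 125 / 64 * x ^ 3 := by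
    have := pow_le_pow_left₀ hy0.le hyx 3
    linarith [show (5 / 4 * x) ^ 3 = 125 / 64 * x ^ 3 by ring]
  have hx2 : 0 < x ^ 2 := by positivity
  have hx3 : 0 < x ^ 3 := by positivity
  refine le_min ?_ ?_
  · have h4 : VA c₁ D y1 y ≤ c₁ * y1 ^ 3 * y ^ 2 := min_le_left _ _
    have h5 : c₁ * y1 ^ 3 * y ^ 2 ≤ c₁ * y1 ^ 3 * (25 / 16 * x ^ 2) :=
      mul_le_mul_of_nonneg_left h2 (by positivity)
    have h6 : 0 < c₁ * y1 ^ 3 * x ^ 2 := by positivity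
    linarith [show c₁ * y1 ^ 3 * (25 / 16 * x ^ 2) = 25 / 16 * (c₁ * y1 ^ 3 * x ^ 2) by ring,
      show c₁ * y1 ^ 3 * (2 * x) ^ 2 = 4 * (c₁ * y1 ^ 3 * x ^ 2) by ring]
  · have h4 : VA c₁ D y1 y ≤ D * y ^ 3 := min_le_right _ _
    have h5 : D * y ^ 3 ≤ D * (125 / 64 * x ^ 3) := mul_le_mul_of_nonneg_left h3 hD.le
    have h6 : 0 < D * x ^ 3 := by positivity
    linarith [show D * (125 / 64 * x ^ 3) = 125 / 64 * (D * x ^ 3) by ring,
      show D * (2 * x) ^ 3 = 8 * (D * x ^ 3) by ring]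

/-- **The anchor, one `n`.** -/
theorem anchor_pt {Φ K : ℝ → ℝ → ℝ} {c N Λ D S A Y y1 : ℝ} (hN : 0 < N) (hΛ : 0 < Λ)
    (hc : 0 < c) (hD : 0 < D) (hS : 0 < S) (hY : 0 < Y) (hYy : Y ≤ y1)
    (hy1D : y1 ^ 2 ≤ D) (hA2 : 2 ≤ A) (hAΛ : 25 * Λ ≤ A) (hAi : 2 / Λ ≤ A)
    (cv : ∀ x ∈ Icc Y y1, ConcaveOn ℝ (Ici 0) (Φ x))
    (dx : ∀ x ∈ Icc Y y1, ∀ v, 0 ≤ v → HasDerivAt (fun y => Φ y v) (K x v / x ^ 2) x)
    (LC : ∀ y ∈ Icc Y y1, ∀ V, y ^ 5 ≤ A * V → V ≤ A * (D * y ^ 3) →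
      (2 * V ≤ A * y ^ 5 ∨ ∃ z ∈ Icc y (2 * y), 1 ≤ c * sec (Φ z) 0 (2 * V)) →
      (∃ w, 0 ≤ w ∧ 2 * w ≤ V ∧ c * sec (Φ y) w V ≤ 1 + A * (S * y ^ 2)) →
      K y V ≤ Λ / 10 * (N * y ^ 6))
    (K0 : ∀ y ∈ Icc Y y1, 9 / 10 * Λ * (N * y ^ 6) ≤ K y 0)
    (K1 : ∀ V, 0 < V → V ≤ Λ / 2 * y1 ^ 5 → 1 / 2 * Λ * (N * y1 ^ 6) ≤ K y1 V) :
    ∀ y ∈ Icc Y y1, 1 + S * y ^ 2 ≤ c * sec (Φ y) 0 (VA (Λ / 2) D y1 y) := by
  have hy10 : 0 < y1 := lt_of_lt_of_le hY hYy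
  have hc₁ : 0 < Λ / 2 := by positivity
  -- the range of the field
  have hlow : ∀ x y, 0 < x → x ≤ y → y ≤ y1 → x ^ 5 ≤ A * VA (Λ / 2) D y1 y := by
    intro x y hx hxy hyy
    have hy0 : 0 < y := lt_of_lt_of_le hx hxy
    have h5 : x ^ 5 ≤ y ^ 5 := pow_le_pow_left₀ hx.le hxy 5
    refine h5.trans ?_
    unfold VA
    rcases min_choice (Λ / 2 * y1 ^ 3 * y ^ 2) (D * y ^ 3) with h | h
    · rw [h]
      have h3 : y ^ 3 ≤ y1 ^ 3 := pow_le_pow_left₀ hy0.le hyy 3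
      have h6 : 2 ≤ A * Λ := by rwa [div_le_iff₀ hΛ] at hAi
      have h7 : y ^ 5 = y ^ 3 * y ^ 2 := by ring
      have h8 : y ^ 3 * y ^ 2 ≤ y1 ^ 3 * y ^ 2 := mul_le_mul_of_nonneg_right h3 (by positivity)
      have h9 : 0 < y1 ^ 3 * y ^ 2 := by positivity
      have e : A * (Λ / 2 * y1 ^ 3 * y ^ 2) = A * Λ / 2 * (y1 ^ 3 * y ^ 2) := by ring
      rw [e, h7]
      nlinarith
    · rw [h]
      have h3 : y ^ 2 ≤ y1 ^ 2 := pow_le_pow_left₀ hy0.le hyy 2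
      have h8 : 0 < y ^ 3 := by positivity
      have h9 : y ^ 5 = y ^ 2 * y ^ 3 := by ring
      have h10 : y ^ 2 * y ^ 3 ≤ D * y ^ 3 := mul_le_mul_of_nonneg_right (h3.trans hy1D) h8.le
      have h11 : 0 < D * y ^ 3 := by positivity
      rw [h9]
      nlinarith
  have hL1 : ∀ y, 0 < y → S * y ^ 2 ≤ A * (S * y ^ 2) := by
    intro y hy
    have : 0 < S * y ^ 2 := by positivity
    nlinarith
  refine flowH (L := fun y => S * y ^ 2) (L' := fun y => S * (2 * y)) (V := VA (Λ / 2) D y1)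
    (w := fun _ => 0) (ρ := 5 / 4) (η := 1) hY (by norm_num) one_pos hc cv dx ?_ ?_ ?_ ?_ ?_ ?_
    ?_ ?_
  · intro x _
    have h := (hasDerivAt_pow 2 x).const_mul S
    have e : S * (((2 : ℕ) : ℝ) * x ^ (2 - 1)) = S * (2 * x) := by norm_num
    rw [e] at h
    exact h
  · intro x hx
    have : 0 < x := lt_of_lt_of_le hY hx.1
    positivity
  · intro x hx y _ hxy
    exact VA_mono hc₁ hD hy10 (lt_of_lt_of_le hY hx.1) hxy
  · intro x _ y _ _
    exact le_rfl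
  · intro x _
    exact le_rfl
  · intro x hx
    exact VA_pos hc₁ hD hy10 (lt_of_lt_of_le hY hx.1)
  · -- the touching points
    intro x hx y hy hxy hyx hist _ h2
    have hx0 : 0 < x := lt_of_lt_of_le hY hx.1
    have hy0 : 0 < y := lt_of_lt_of_le hx0 hxy
    obtain ⟨V, hV⟩ : ∃ V, V = VA (Λ / 2) D y1 y := ⟨_, rfl⟩
    have hV0 : 0 < V := by rw [hV]; exact VA_pos hc₁ hD hy10 hy0
    have hVl := hlow x y hx0 hxy hy.2
    have hVu : V ≤ A * (D * x ^ 3) := by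
      have h4 : V ≤ D * y ^ 3 := by rw [hV]; exact min_le_right _ _
      have h3 : y ^ 3 ≤ 125 / 64 * x ^ 3 := by
        have := pow_le_pow_left₀ hy0.le hyx 3
        linarith [show (5 / 4 * x) ^ 3 = 125 / 64 * x ^ 3 by ring]
      have h5 : D * y ^ 3 ≤ D * (125 / 64 * x ^ 3) := mul_le_mul_of_nonneg_left h3 hD.le
      have h6 : 0 < D * x ^ 3 := by positivity
      nlinarith
    have hh : 2 * V ≤ A * x ^ 5 ∨ ∃ z ∈ Icc x (2 * x), 1 ≤ c * sec (Φ z) 0 (2 * V) := by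
      rcases le_total (2 * x) y1 with h | h
      · right
        refine ⟨2 * x, ⟨by linarith, le_rfl⟩, ?_⟩
        have h3 := hist (2 * x) ⟨by linarith, h⟩
        have h4 : 2 * V ≤ VA (Λ / 2) D y1 (2 * x) := by
          rw [hV]; exact VA_two hc₁ hD hy10 hx0 hxy hyx
        have h5 : sec (Φ (2 * x)) 0 (VA (Λ / 2) D y1 (2 * x)) ≤ sec (Φ (2 * x)) 0 (2 * V) :=
          sec_anti (cv (2 * x) ⟨by linarith [hx.1], h⟩) le_rfl le_rfl h4 (by positivity)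
            (lt_of_lt_of_le (by positivity) h4)
        have h6 := mul_le_mul_of_nonneg_left h5 hc.le
        have h7 : 0 < S * (2 * x) ^ 2 := by positivity
        linarith
      · left
        have h4 : V ≤ Λ / 2 * y1 ^ 3 * y ^ 2 := by rw [hV]; exact min_le_left _ _
        have h5 : y1 ^ 3 ≤ 8 * x ^ 3 := by
          have := pow_le_pow_left₀ hy10.le h 3
          linarith [show (2 * x) ^ 3 = 8 * x ^ 3 by ring]
        have h6 : y ^ 2 ≤ 25 / 16 * x ^ 2 := by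
          have := pow_le_pow_left₀ hy0.le hyx 2
          linarith [show (5 / 4 * x) ^ 2 = 25 / 16 * x ^ 2 by ring]
        have h7 : y1 ^ 3 * y ^ 2 ≤ 8 * x ^ 3 * (25 / 16 * x ^ 2) :=
          mul_le_mul h5 h6 (by positivity) (by positivity)
        have h8 : Λ / 2 * (y1 ^ 3 * y ^ 2) ≤ Λ / 2 * (8 * x ^ 3 * (25 / 16 * x ^ 2)) :=
          mul_le_mul_of_nonneg_left h7 hc₁.le
        have h9 : 0 < x ^ 5 := by positivity
        have h10 : 25 * Λ * x ^ 5 ≤ A * x ^ 5 := mul_le_mul_of_nonneg_right hAΛ h9.le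
        linarith [show Λ / 2 * (8 * x ^ 3 * (25 / 16 * x ^ 2)) = 25 / 4 * Λ * x ^ 5 by ring,
          show Λ / 2 * y1 ^ 3 * y ^ 2 = Λ / 2 * (y1 ^ 3 * y ^ 2) by ring, mul_pos hΛ h9]
    rw [← hV] at h2 hVl ⊢
    have h3 := LC x hx V hVl hVu hh
      ⟨0, le_rfl, by linarith, h2.trans (by linarith [hL1 x hx0])⟩
    have h4 := K0 x hx
    have h5 : 0 < Λ * (N * x ^ 6) := by positivity
    have h6 : K x V - K x 0 ≤ 0 := by linarith
    have h7 : c * ((K x V - K x 0) / (V - 0)) / x ^ 2 ≤ 0 := by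
      apply div_nonpos_of_nonpos_of_nonneg _ (by positivity)
      apply mul_nonpos_of_nonneg_of_nonpos hc.le
      exact div_nonpos_of_nonpos_of_nonneg h6 (by linarith)
    refine h7.trans ?_
    positivity
  · -- the top
    by_contra hcon
    push Not at hcon
    obtain ⟨V, hV⟩ : ∃ V, V = VA (Λ / 2) D y1 y1 := ⟨_, rfl⟩
    have hV0 : 0 < V := by rw [hV]; exact VA_pos hc₁ hD hy10 hy10
    have hVl := hlow y1 y1 hy10 le_rfl le_rfl
    have hV5 : V ≤ Λ / 2 * y1 ^ 5 := by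
      have : V ≤ Λ / 2 * y1 ^ 3 * y1 ^ 2 := by rw [hV]; exact min_le_left _ _
      linarith [show Λ / 2 * y1 ^ 3 * y1 ^ 2 = Λ / 2 * y1 ^ 5 by ring]
    have hVu : V ≤ A * (D * y1 ^ 3) := by
      have h4 : V ≤ D * y1 ^ 3 := by rw [hV]; exact min_le_right _ _
      have h6 : 0 < D * y1 ^ 3 := by positivity
      nlinarith
    rw [← hV] at hcon hVl
    have h9 : 0 < y1 ^ 5 := by positivity
    have h3 := LC y1 ⟨hYy, le_rfl⟩ V hVl hVu (Or.inl (by nlinarith))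
      ⟨0, le_rfl, by linarith, hcon.le.trans (by linarith [hL1 y1 hy10])⟩
    have h4 := K1 V hV0 hV5
    have h5 : 0 < Λ * (N * y1 ^ 6) := by positivity
    linarith

end Vale.Agent.P146.H892
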