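import Vale.Agent.P146.H892.FlowB
import Vale.Agent.P146.H178.End1

/-!
# P146: the lower law for `x ≥ n^(-a+e)`, `a ≤ 1/6`, from the response
-/

open Set Filter Topology MeasureTheory

namespace Vale.Agent.P146.H892.B

open Vale.Agent.P146 Vale.Agent.P146.H122 Vale.Agent.P146.H178

/-- **The lower law for `x ≥ n^(-a+e)`.** -/
theorem lobK_of_respB {a β b b₁ : ℝ} (ha : a ≤ 1 / 6) (hβ : 0 < β) (hb₁ : b₁ < b) (hb₁0 : 0 < b₁)
    {κ : ℕ → ℝ → ℝ} {At : ℕ → ℝ → ℝ → ℝ} (h0 : ∀ n x, 0 ≤ κ n x) (hC : Contig β κ At)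
    (hR : RespB a b₁ At) (hL : LobK κ b) : LobK κ a := by
  intro e he
  obtain ⟨e1, he1⟩ : ∃ e1, e1 = min e ((b - b₁) / 2) := ⟨_, rfl⟩
  have he1e : e1 ≤ e := by rw [he1]; exact min_le_left _ _
  have he1b : e1 ≤ (b - b₁) / 2 := by rw [he1]; exact min_le_right _ _
  have he10 : 0 < e1 := by rw [he1]; exact lt_min he (by linarith)
  obtain ⟨δ, hδ, hLn⟩ := hL e1 he10
  obtain ⟨C, hC0, hCn⟩ := hC
  obtain ⟨s, d, hs, hd, hsd0, hRn⟩ := hR (min (e / 2) b₁) (lt_min (by positivity) hb₁0)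
  have hsd : s + d ≤ e / 2 := hsd0.trans (min_le_left _ _)
  have hsd1 : s + d ≤ b₁ := hsd0.trans (min_le_right _ _)
  refine ⟨δ, hδ, ?_⟩
  have ev2 : ∀ᶠ n : ℕ in atTop, (n : ℝ) ^ (-b₁) ≤ 1 / 4 :=
    ((tendsto_rpow_neg_atTop hb₁0).comp
      (tendsto_natCast_atTop_atTop (R := ℝ))).eventually_le_const (by norm_num)
  filter_upwards [hLn, hRn, ev2, ev_pow (show 0 < e / 2 by positivity) (max 2 (512 * β)),
    ev_log (show 0 < 5 * e by positivity) (2 * C), eventually_ge_atTop 1,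
    ev_pow hb₁0 (8 * β * C)]
    with n g1 g2 g3 g4 g5 g6 g7 x hx hxδ
  have hn1 : (1 : ℝ) ≤ n := by exact_mod_cast g6
  have hn0 : (0 : ℝ) < n := by linarith
  have hx0 : 0 < x := lt_of_lt_of_le (Real.rpow_pos_of_pos hn0 _) hx
  rcases le_total ((n : ℝ) ^ (-b₁)) x with hc | hc
  · -- the known range
    have h1 : (n : ℝ) ^ (-b + e1) ≤ x :=
      (Real.rpow_le_rpow_of_exponent_le hn1 (by linarith)).trans hc
    refine le_trans ?_ (g1 x h1 hxδ)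
    exact mul_le_mul_of_nonneg_right (Real.rpow_le_rpow_of_exponent_le hn1 (by linarith))
      (by positivity)
  · -- the new range
    obtain ⟨y, hy⟩ : ∃ y, y = x / 2 := ⟨_, rfl⟩
    have hxy : x = 2 * y := by rw [hy]; ring
    have hy0 : 0 < y := by rw [hy]; positivity
    have hy1' : (n : ℝ) ^ (-a + e / 2) ≤ y := by
      have h2 : (2 : ℝ) ≤ (n : ℝ) ^ (e / 2) := (le_max_left _ _).trans g4
      have h3 : (n : ℝ) ^ (-a + e) = (n : ℝ) ^ (-a + e / 2) * (n : ℝ) ^ (e / 2) := by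
        rw [← Real.rpow_add hn0]; congr 1; ring
      have h4 : 0 < (n : ℝ) ^ (-a + e / 2) := Real.rpow_pos_of_pos hn0 _
      rw [h3] at hx
      rw [hy, le_div_iff₀ (by norm_num)]
      nlinarith
    have hy1 : (n : ℝ) ^ (-a + min (e / 2) b₁) ≤ y :=
      (Real.rpow_le_rpow_of_exponent_le hn1 (by linarith [min_le_left (e / 2) b₁])).trans hy1'
    have hy2 : y ≤ (n : ℝ) ^ (-b₁) := by rw [hy]; linarith
    have hy3 : y ≤ 1 / 4 := hy2.trans g3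
    have hv0 : 0 < (n : ℝ) ^ (-d) * y ^ 3 := by positivity
    have hv1 : (n : ℝ) ^ (-d) * y ^ 3 ≤ 1 := by
      have h2 : (n : ℝ) ^ (-d) ≤ 1 := Real.rpow_le_one_of_one_le_of_nonpos hn1 (by linarith)
      have h3 : y ^ 3 ≤ 1 := pow_le_one₀ hy0.le (by linarith)
      calc (n : ℝ) ^ (-d) * y ^ 3 ≤ 1 * 1 := by gcongr
        _ = 1 := by norm_num
    have h5 := hCn n g6 y _ hy0 hy3 hv0 hv1
    have h6 := g2 y hy1 hy2
    have h7 : y * n * ((n : ℝ) ^ (-d) * y ^ 3) / (4 * β) * ((n : ℝ) ^ (-s) * y ^ 2) ≤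
        y * n * ((n : ℝ) ^ (-d) * y ^ 3) / (4 * β) *
          (At n y ((n : ℝ) ^ (-d) * y ^ 3) - 1) :=
      mul_le_mul_of_nonneg_left h6 (by positivity)
    have e1' : y * n * ((n : ℝ) ^ (-d) * y ^ 3) / (4 * β) * ((n : ℝ) ^ (-s) * y ^ 2) =
        (n : ℝ) ^ (1 - d - s) * y ^ 6 / (4 * β) := by
      have : (n : ℝ) ^ (1 - d - s) = n * (n : ℝ) ^ (-d) * (n : ℝ) ^ (-s) := by
        rw [show (1 - d - s : ℝ) = 1 + (-d) + (-s) by ring, Real.rpow_add hn0,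
          Real.rpow_add hn0, Real.rpow_one]
      rw [this]; ring
    rw [e1'] at h7
    have h8 : (n : ℝ) ^ (1 - e / 2) * y ^ 6 / (4 * β) ≤ (n : ℝ) ^ (1 - d - s) * y ^ 6 / (4 * β) := by
      have : (n : ℝ) ^ (1 - e / 2) ≤ (n : ℝ) ^ (1 - d - s) :=
        Real.rpow_le_rpow_of_exponent_le hn1 (by linarith)
      gcongr
    have h9 := h0 n y
    have h20 := quad_term hn1 hβ hy0.le hy2 (show -d + s ≤ 0 ∨ -d + s ≤ b₁ from
      Or.inr (by linarith)) g7 hb₁0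
    -- `κ (2y) ≥ n^(1-e/2) y^6/(4β) - 2C(1 + log n)`
    have h10 : (n : ℝ) ^ (1 - e / 2) * y ^ 6 / (4 * β) - 2 * C * (1 + Real.log n) ≤ κ n x := by
      rw [hxy]
      have e2 : (n : ℝ) ^ (1 - d - s) * y ^ 6 / (4 * β) =
          2 * ((n : ℝ) ^ (1 - d - s) * y ^ 6 / (8 * β)) := by ring
      have e3 : (n : ℝ) ^ (1 - e / 2) * y ^ 6 / (4 * β) ≤
          2 * ((n : ℝ) ^ (1 - d - s) * y ^ 6 / (8 * β)) := by rw [← e2]; exact h8
      rw [e2] at h7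
      linarith
    refine le_trans ?_ h10
    -- `x^6 = 64 y^6`
    have h11 : (n : ℝ) ^ (1 - e) * x ^ 6 = (n : ℝ) ^ (1 - e) * (64 * y ^ 6) := by
      rw [hxy]; ring
    have h12 : (n : ℝ) ^ (5 * e) ≤ (n : ℝ) ^ (1 - e) * x ^ 6 := by
      have h13 : ((n : ℝ) ^ (-a + e)) ^ 6 ≤ x ^ 6 :=
        pow_le_pow_left₀ (by positivity) hx 6
      have h14 : (n : ℝ) ^ (1 - e) * ((n : ℝ) ^ (-a + e)) ^ 6 = (n : ℝ) ^ (1 - 6 * a + 5 * e) := by
        rw [← Real.rpow_natCast, ← Real.rpow_mul hn0.le, ← Real.rpow_add hn0]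
        congr 1; push_cast; ring
      have h14' : (n : ℝ) ^ (5 * e) ≤ (n : ℝ) ^ (1 - 6 * a + 5 * e) :=
        Real.rpow_le_rpow_of_exponent_le hn1 (by linarith)
      refine h14'.trans ?_
      rw [← h14]
      exact mul_le_mul_of_nonneg_left h13 (by positivity)
    have h15 : 2 * ((n : ℝ) ^ (1 - e) * (64 * y ^ 6)) ≤ (n : ℝ) ^ (1 - e / 2) * y ^ 6 / (4 * β) := by
      have h16 : 512 * β ≤ (n : ℝ) ^ (e / 2) := (le_max_right _ _).trans g4
      have h17 : (n : ℝ) ^ (1 - e / 2) = (n : ℝ) ^ (1 - e) * (n : ℝ) ^ (e / 2) := by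
        rw [← Real.rpow_add hn0]; congr 1; ring
      rw [h17, le_div_iff₀ (by positivity)]
      have h18 : 0 < (n : ℝ) ^ (1 - e) * y ^ 6 := by positivity
      nlinarith
    rw [← h11] at h15
    linarith

end Vale.Agent.P146.H892.B
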