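import Vale.Agent.P146.H892.EndB
import Vale.Agent.P146.H892.StartM
import Vale.Agent.P146.H695.Sub2

/-!
# P146: the variance of the Sherrington-Kirkpatrick free energy from the two entropy bounds

`lowV_of_inputs`: `LCin` and `KDiffB a` give `Var F_n ≥ n ^ γ` for every `γ < 2 a`, `a ≤ 1 / 6`.
-/

open Set Filter Topology MeasureTheory

namespace Vale.Agent.P146.H892.B

open Vale.Agent.P146 Vale.Agent.P146.H122 Vale.Agent.P146.H178

/-- The two entropy bounds for the natural functional. -/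
def Inputs (a β b₁ b₀ : ℝ) : Prop := ∀ e : ℝ, 0 < e → ∃ s s' d0 d : ℝ,
  0 < s ∧ s < s' ∧ 0 < d0 ∧ d0 < d ∧ s' + d ≤ e ∧ d0 < 2 * b₀ ∧ d < 2 * b₁ ∧
    LCin β b₁ b₀ d0 s (fun n x v => H9.Phn n β x v) (fun n x v => H9.KV n β x v) ∧
    KDiffB a β b₁ e s s' d (fun n x v => H9.Phn n β x v) fun n x v => H9.KV n β x v

/-- **The response**, general lower exponent. -/
theorem respB_of {a β b₁ b₀ : ℝ} (ha : a ≤ 1 / 6) (hβ : 1 < β) (hb₀ : 0 < b₀) (hb : 3 * b₀ < b₁)
    (hba : b₁ < 2 / 17) (h : Inputs a β b₁ b₀) : RespB a b₁ fun n x v => H877.At β n x v := by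
  have hβ0 : 0 < β := by linarith
  have key := resp_of_kdiffB (a := a) (b₁ := b₁) ha hβ0 (by linarith)
    (Φ := fun n x v => H9.Phn n β x v) (K := fun n x v => H9.KV n β x v)
    (fun n _ x hx hx1 => H320.Conc.Phn_conc n β hx (by linarith))
    (fun n _ x hx _ v _ => H9.hasDerivAt_Phn n β v hx) (fun e he => by
      obtain ⟨s, s', d0, d, hs, hss, hd0, hdd, hsd, h1, h2, h3, h4⟩ := h e he
      exact ⟨s, s', d0, d, hs, hss, hd0, hdd, hsd,
        startM_gen hβ hb₀ hb hba hd0 h1 hdd h2 h3, h4⟩)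
  have e1 : (At β fun n x v => H9.Phn n β x v) = fun n x v => H877.At β n x v := by
    funext n x v
    rw [H9.At_eq]
    rfl
  rw [← e1]
  exact key

/-- **The sharp lower law and the variance.** -/
theorem lowV_of_inputs {a β b₁ b₀ : ℝ} (ha0 : 0 < a) (ha : a ≤ 1 / 6) (hβ : 1 < β)
    (hb₀ : 0 < b₀) (hb : 3 * b₀ < b₁) (hba : b₁ < 2 / 17) (h : Inputs a β b₁ b₀) :
    H260.Dev.Lob β a ∧ H695.LowV β (2 * a) := by
  have hβ0 : 0 < β := by linarith
  obtain ⟨C, hC, hC4⟩ := H877.contig_four hβ.le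
  have hc : Contig β (H877.kap β) fun n x v => H877.At β n x v := ⟨C, hC, hC4⟩
  have hL : LobK (H877.kap β) (2 / 17) := H695.Sub.lob17 hβ
  have h1 : LobK (H877.kap β) a := lobK_of_respB ha hβ0 hba (by linarith)
    (fun n x => H877.kap_nonneg β n x) hc (respB_of ha hβ hb₀ hb hba h) hL
  have h2 : H260.Dev.Lob β a := h1
  exact ⟨h2, H695.Sub.lowV_of_lob ha0 ha h2⟩

end Vale.Agent.P146.H892.B
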