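import Mathlib
import Vale.Agent.P146.H122.Flow

/-!
# P146: the start of the flow (abstract part)

`Φ y v` is a function of the exponent `y` and the field `v`, `K y v / y ^ 2` is its derivative in
`y`.  If the dyadic secant over `(V, 2 V)` at `Y` were not above `1 + σ`, then
`Φ y (2 V) - Φ y 0` would become negative at a larger exponent `Y'`.  The inequalities for `K` are
used only at touching points.
-/

open Set Filter Topology

namespace Vale.Agent.P146.H892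

open Vale.Agent.P146.H122

/-- an upper barrier, transported to the right; the derivatives are compared at touching points -/
lemma up_barrier {f f' B B' : ℝ → ℝ} {x y : ℝ}
    (hf : ∀ z ∈ Icc x y, HasDerivAt f (f' z) z) (hB : ∀ z, HasDerivAt B (B' z) z)
    (h0 : f x ≤ B x) (h : ∀ z ∈ Ico x y, f z = B z → f' z < B' z) :
    ∀ z ∈ Icc x y, f z ≤ B z := by
  intro z hz
  exact image_le_of_deriv_right_lt_deriv_boundary
    (fun z hz => (hf z hz).continuousAt.continuousWithinAt)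
    (fun z hz => (hf z ⟨hz.1, hz.2.le⟩).hasDerivWithinAt) h0 hB h hz

/-- The difference `Φ y W - Φ y 0` stays below `g0 - q (y^5 - Y^5)` as soon as `K` is small at the
touching points. -/
lemma drop {Φ K : ℝ → ℝ → ℝ} {W Y0 Y1 g0 q : ℝ} (hY0 : 0 < Y0)
    (dx : ∀ y ∈ Icc Y0 Y1, HasDerivAt (fun y => Φ y W) (K y W / y ^ 2) y)
    (dx0 : ∀ y ∈ Icc Y0 Y1, HasDerivAt (fun y => Φ y 0) (K y 0 / y ^ 2) y)
    (h0 : Φ Y0 W - Φ Y0 0 ≤ g0)
    (h : ∀ y ∈ Ico Y0 Y1, Φ y W - Φ y 0 = g0 - q * (y ^ 5 - Y0 ^ 5) →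
      K y W + 5 * q * y ^ 6 < K y 0) :
    ∀ y ∈ Icc Y0 Y1, Φ y W - Φ y 0 ≤ g0 - q * (y ^ 5 - Y0 ^ 5) := by
  have key := up_barrier (f := fun y => Φ y W - Φ y 0)
    (f' := fun y => K y W / y ^ 2 - K y 0 / y ^ 2) (B := fun y => g0 - q * (y ^ 5 - Y0 ^ 5))
    (B' := fun y => 0 - q * (5 * y ^ 4)) (x := Y0) (y := Y1)
    (fun z hz => (dx z hz).sub (dx0 z hz)) ?_ (by simpa using h0) ?_
  · exact key
  · intro z
    have h1 := (((hasDerivAt_pow 5 z).sub_const (Y0 ^ 5)).const_mul q).const_sub g0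
    have e : -(q * (((5 : ℕ) : ℝ) * z ^ (5 - 1))) = 0 - q * (5 * z ^ 4) := by
      norm_num
    rw [e] at h1
    exact h1
  · intro z hz he
    have hz0 : 0 < z := lt_of_lt_of_le hY0 hz.1
    have h1 := h z hz he
    have h2 : 0 < z ^ 2 := by positivity
    have e : K z W / z ^ 2 - K z 0 / z ^ 2 = (K z W - K z 0) / z ^ 2 := by ring
    change K z W / z ^ 2 - K z 0 / z ^ 2 < 0 - q * (5 * z ^ 4)
    rw [e, div_lt_iff₀ h2]
    nlinarith

/-- **The start of the flow.** -/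
theorem start {Φ K : ℝ → ℝ → ℝ} {c m V Y Y' M σ p q k : ℝ}
    (hY : 0 < Y) (hM : 1 ≤ M) (hMY : M * Y ≤ Y') (hV : 0 < V)
    (hq : 0 ≤ q)
    (dx : ∀ y ∈ Icc Y Y', ∀ w, 0 ≤ w → HasDerivAt (fun y => Φ y w) (K y w / y ^ 2) y)
    -- the flow inequality at the touching points on `[Y, M Y]`
    (KD : ∀ y ∈ Icc Y (M * Y), c * sec (Φ y) V (2 * V) = 1 + σ * (y / Y) ^ p →
      c * (K y (2 * V) - K y V) < p * (σ * (y / Y) ^ p) * y * V)
    -- contiguity
    (CT : Φ Y (2 * V) - Φ Y 0 ≤ m + k * Y ^ 5)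
    -- the upper bound of the entropy for a small secant
    (LC : ∀ y ∈ Icc Y (M * Y), c * sec (Φ y) V (2 * V) ≤ 1 + σ * (y / Y) ^ p →
      m - q * y ^ 5 ≤ Φ y (2 * V) - Φ y 0 → K y (2 * V) + 5 * q * y ^ 6 < K y 0)
    -- the upper bound of the entropy in the massive case
    (LM : ∀ y ∈ Icc (M * Y) Y', Φ y (2 * V) - Φ y 0 ≤ m - q / 2 * y ^ 5 →
      m - q * y ^ 5 ≤ Φ y (2 * V) - Φ y 0 → K y (2 * V) + 5 * q * y ^ 6 < K y 0)
    (hMq : 2 * (k + q) ≤ q * M ^ 5) (hk : 0 ≤ k)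
    (hJ : 0 ≤ Φ Y' (2 * V) - Φ Y' 0) (hend : m + (k + q) * Y ^ 5 < q * Y' ^ 5) :
    1 + σ < c * sec (Φ Y) V (2 * V) := by
  by_contra hcon
  push Not at hcon
  have hMYp : 0 < M * Y := by positivity
  have hYM : Y ≤ M * Y := by nlinarith
  -- the secant stays small on `[Y, M Y]`
  have h1 : ∀ y ∈ Icc Y (M * Y), c * sec (Φ y) V (2 * V) ≤ 1 + σ * (y / Y) ^ p := by
    have hd : ∀ z ∈ Icc Y (M * Y), HasDerivAt (fun y => c * sec (Φ y) V (2 * V))
        (c * ((K z (2 * V) / z ^ 2 - K z V / z ^ 2) / (2 * V - V))) z := by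
      intro z hz
      have hz' : z ∈ Icc Y Y' := ⟨hz.1, hz.2.trans hMY⟩
      exact (((dx z hz' (2 * V) (by positivity)).sub (dx z hz' V hV.le)).div_const
        (2 * V - V)).const_mul c
    have hB : ∀ z ∈ Icc Y (M * Y), HasDerivAt (fun y => 1 + σ * (y / Y) ^ p)
        (σ * (1 / Y * p * (z / Y) ^ (p - 1))) z := by
      intro z hz
      have hz0 : 0 < z := lt_of_lt_of_le hY hz.1
      have h2 : HasDerivAt (fun y : ℝ => y / Y) (1 / Y) z := (hasDerivAt_id z).div_const Y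
      have h3 := h2.rpow_const (p := p) (Or.inl (by positivity : z / Y ≠ 0))
      exact (h3.const_mul σ).const_add 1
    intro z hz
    refine image_le_of_deriv_right_lt_deriv_boundary'
      (f := fun y => c * sec (Φ y) V (2 * V)) (B := fun y => 1 + σ * (y / Y) ^ p)
      (fun z hz => (hd z hz).continuousAt.continuousWithinAt)
      (fun z hz => (hd z ⟨hz.1, hz.2.le⟩).hasDerivWithinAt) ?_
      (fun z hz => (hB z hz).continuousAt.continuousWithinAt)
      (fun z hz => (hB z ⟨hz.1, hz.2.le⟩).hasDerivWithinAt) ?_ hz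
    · simp only [div_self hY.ne', Real.one_rpow, mul_one]
      exact hcon
    · intro y hy he
      have hy0 : 0 < y := lt_of_lt_of_le hY hy.1
      have h4 := KD y ⟨hy.1, hy.2.le⟩ he
      have e1 : c * ((K y (2 * V) / y ^ 2 - K y V / y ^ 2) / (2 * V - V)) =
          c * (K y (2 * V) - K y V) / (V * y ^ 2) := by
        have : (2 * V - V) = V := by ring
        rw [this]
        field_simp
      rw [e1, div_lt_iff₀ (by positivity)]
      have e2 : (y / Y) ^ (p - 1) * (y / Y) = (y / Y) ^ p := by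
        rw [Real.rpow_sub_one (by positivity)]
        field_simp
      have e3 : σ * (1 / Y * p * (y / Y) ^ (p - 1)) * (V * y ^ 2) =
          p * (σ * ((y / Y) ^ (p - 1) * (y / Y))) * y * V := by
        field_simp
      rw [e3, e2]
      exact h4
  -- the difference drops on `[Y, M Y]`
  have h2 : ∀ y ∈ Icc Y (M * Y), Φ y (2 * V) - Φ y 0 ≤ (m + k * Y ^ 5) - q * (y ^ 5 - Y ^ 5) := by
    refine drop hY (fun y hy => dx y ⟨hy.1, hy.2.trans hMY⟩ _ (by positivity))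
      (fun y hy => dx y ⟨hy.1, hy.2.trans hMY⟩ 0 le_rfl) CT ?_
    intro y hy he
    have hyI : y ∈ Icc Y (M * Y) := ⟨hy.1, hy.2.le⟩
    refine LC y hyI (h1 y hyI) ?_
    rw [he]
    have : 0 ≤ (k + q) * Y ^ 5 := by positivity
    nlinarith
  have h3 := h2 (M * Y) (right_mem_Icc.2 hYM)
  -- the difference drops on `[M Y, Y']`
  have h4 : ∀ y ∈ Icc (M * Y) Y', Φ y (2 * V) - Φ y 0 ≤
      ((m + k * Y ^ 5) - q * ((M * Y) ^ 5 - Y ^ 5)) - q * (y ^ 5 - (M * Y) ^ 5) := by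
    refine drop hMYp (fun y hy => dx y ⟨hYM.trans hy.1, hy.2⟩ _ (by positivity))
      (fun y hy => dx y ⟨hYM.trans hy.1, hy.2⟩ 0 le_rfl) h3 ?_
    intro y hy he
    have hy0 : 0 < y := lt_of_lt_of_le hMYp hy.1
    have h5 : (M * Y) ^ 5 ≤ y ^ 5 := pow_le_pow_left₀ hMYp.le hy.1 5
    have h6 : (k + q) * Y ^ 5 ≤ q / 2 * y ^ 5 := by
      have h7 : (M * Y) ^ 5 = M ^ 5 * Y ^ 5 := by ring
      have h8 : 0 < Y ^ 5 := by positivity
      have h9 : (k + q) * Y ^ 5 ≤ q / 2 * M ^ 5 * Y ^ 5 := by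
        apply mul_le_mul_of_nonneg_right _ h8.le
        linarith
      calc (k + q) * Y ^ 5 ≤ q / 2 * M ^ 5 * Y ^ 5 := h9
        _ = q / 2 * (M * Y) ^ 5 := by rw [h7]; ring
        _ ≤ q / 2 * y ^ 5 := mul_le_mul_of_nonneg_left h5 (by positivity)
    refine LM y ⟨hy.1, hy.2.le⟩ ?_ ?_
    · rw [he]; linarith
    · rw [he]
      have : 0 ≤ (k + q) * Y ^ 5 := by positivity
      linarith
  have h5 := h4 Y' (right_mem_Icc.2 hMY)
  linarith

end Vale.Agent.P146.H892
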