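import Vale.Agent.P146.H892.Start
import Vale.Agent.P146.H122.FlowR

/-!
# P146: the start of the flow, `n → ∞`

`Φ n x v`, `K n x v` as in `H122.FlowR`.  The start `H122.Start β b₁ s d Φ` from the inequality for
the differences of the entropies near `y = n^(-b₁)` and upper bounds of the entropy for a small and
for a negative response.
-/

open Set Filter Topology

namespace Vale.Agent.P146.H892

open Vale.Agent.P146.H122 Vale.Agent.P146.H178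

/-- The inequality for the difference of the entropies at the fields `2 V` and `V`, for `y` near
`n^(-b₁)` (a constant factor of room everywhere). -/
def KDiffU (β b₁ s d : ℝ) (Φ K : ℕ → ℝ → ℝ → ℝ) : Prop := ∀ A : ℝ, 1 ≤ A →
  ∀ᶠ n : ℕ in atTop, ∀ y : ℝ, (n : ℝ) ^ (-b₁) ≤ y → y ≤ A * (n : ℝ) ^ (-b₁) →
    ∀ V : ℝ, (n : ℝ) ^ (-d) * y ^ 3 ≤ A * V → V ≤ A * ((n : ℝ) ^ (-d) * y ^ 3) →
    ∀ L : ℝ, (n : ℝ) ^ (-s) * y ^ 2 ≤ A * L → L ≤ A * ((n : ℝ) ^ (-s) * y ^ 2) →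
    1 + L / 2 ≤ Asec β Φ n y V (2 * V) → Asec β Φ n y V (2 * V) ≤ 1 + L →
    K n y (2 * V) - K n y V ≤ 2 * (n * y * V / β) * L

/-- The entropy is small if the response is close to `1` (or below), `V` close to `n^(-d) y³`. -/
def KSmall (β b₁ s d : ℝ) (Φ K : ℕ → ℝ → ℝ → ℝ) : Prop := ∀ A : ℝ, 1 ≤ A → ∀ ε : ℝ, 0 < ε →
  ∀ᶠ n : ℕ in atTop, ∀ y : ℝ, (n : ℝ) ^ (-b₁) ≤ y → y ≤ A * (n : ℝ) ^ (-b₁) →
    ∀ V : ℝ, (n : ℝ) ^ (-d) * y ^ 3 ≤ A * V → V ≤ A * ((n : ℝ) ^ (-d) * y ^ 3) →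
    Asec β Φ n y V (2 * V) ≤ 1 + A * ((n : ℝ) ^ (-s) * y ^ 2) →
    n * V / β - A * (n * y ^ 5) ≤ Φ n y (2 * V) - Φ n y 0 →
    K n y (2 * V) ≤ ε * (n * y ^ 6)

/-- The entropy is small if the response is below `1` by a constant times `y ^ 5 / W`. -/
def KMass (β b₁ b₀ d : ℝ) (Φ K : ℕ → ℝ → ℝ → ℝ) : Prop := ∀ A : ℝ, 1 ≤ A → ∀ ε : ℝ, 0 < ε →
  ∀ᶠ n : ℕ in atTop, ∀ y : ℝ, (n : ℝ) ^ (-b₁) ≤ y → y ≤ (n : ℝ) ^ (-b₀) →
    ∀ W : ℝ, y ^ 5 ≤ A * W → W ≤ A * ((n : ℝ) ^ (-d) * y ^ 3) →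
    Φ n y W - Φ n y 0 ≤ n * W / (2 * β) - n * y ^ 5 / A →
    n * W / (2 * β) - A * (n * y ^ 5) ≤ Φ n y W - Φ n y 0 →
    K n y W ≤ ε * (n * y ^ 6)

/-- Contiguity. -/
def Ctg (β : ℝ) (Φ : ℕ → ℝ → ℝ → ℝ) : Prop := ∀ n : ℕ, 1 ≤ n → ∀ x v : ℝ, 0 < x → 0 < v →
  4 * (x * v) ≤ β → x * n * v / (2 * β) * (At β Φ n x v - 1) ≤
    x * (Φ n (2 * x) 0 - Φ n x 0) + 4 / β ^ 2 * (n * (x * v) ^ 2) + (x * β + Real.log (2 * n))

/-- The sharp law without field. -/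
def Law0 (a Λ : ℝ) (Φ : ℕ → ℝ → ℝ → ℝ) : Prop := ∃ P : ℕ → ℝ, ∀ ε : ℝ, 0 < ε → ∃ δ : ℝ, 0 < δ ∧
  ∀ᶠ n : ℕ in atTop, ∀ x : ℝ, (n : ℝ) ^ (-a) ≤ x → x ≤ δ →
    |x * (Φ n x 0 - P n) - Λ * n * x ^ 6| ≤ ε * n * x ^ 6

lemma ev_neg {u : ℝ} (hu : 0 < u) {c : ℝ} (hc : 0 < c) : ∀ᶠ n : ℕ in atTop,
    (n : ℝ) ^ (-u) ≤ c :=
  ((tendsto_rpow_neg_atTop hu).comp
    (tendsto_natCast_atTop_atTop (R := ℝ))).eventually_le_const hc

/-- the entropy without field from the law at `y` and `y / 2` -/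
lemma k0_low {N y Λ P f1 f2 K0 : ℝ} (hN : 0 < N) (hy : 0 < y) (hΛ : 0 < Λ)
    (h1 : f1 - f2 ≤ K0 * (1 / (y / 2) - 1 / y))
    (h3 : |y * (f1 - P) - Λ * N * y ^ 6| ≤ Λ / 100 * N * y ^ 6)
    (h4 : |y / 2 * (f2 - P) - Λ * N * (y / 2) ^ 6| ≤ Λ / 100 * N * (y / 2) ^ 6) :
    9 / 10 * Λ * (N * y ^ 6) ≤ K0 := by
  have h2 : 1 / (y / 2) - 1 / y = 1 / y := by
    field_simp
    norm_num
  rw [h2, mul_one_div, le_div_iff₀ hy] at h1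
  rw [abs_le] at h3 h4
  obtain ⟨X, hX⟩ : ∃ X, X = Λ * (N * y ^ 6) := ⟨_, rfl⟩
  have hX0 : 0 < X := by rw [hX]; positivity
  have e5 : Λ * N * (y / 2) ^ 6 = X / 64 := by rw [hX]; ring
  have e6 : Λ / 100 * N * (y / 2) ^ 6 = X / 6400 := by rw [hX]; ring
  have e7 : Λ * N * y ^ 6 = X := by rw [hX]; ring
  have e8 : Λ / 100 * N * y ^ 6 = X / 100 := by rw [hX]; ring
  have e9 : 9 / 10 * Λ * (N * y ^ 6) = 9 / 10 * X := by rw [hX]; ring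
  rw [e5, e6] at h4
  rw [e7, e8] at h3
  rw [e9]
  have h5 := h3.1
  have h6 := h4.2
  linarith

/-- contiguity at `Y` -/
lemma ct_up {N Y V D β Λ P f0 f1 f2 T : ℝ} (hN : 0 < N) (hY : 0 < Y) (hY1 : Y ≤ 1 / 16)
    (hβ : 1 < β) (hΛ : 0 < Λ) (hV : V = D * Y ^ 3) (hD : 0 < D) (hD1 : D ≤ 1 / 4)
    (hDL : D ≤ Λ / 100)
    (h1 : Y * (f2 - f0) - Y * (N * V / β) ≤ Y * (f1 - f0) +
      4 / β ^ 2 * (N * (Y * (2 * V)) ^ 2) + T)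
    (hT : T ≤ 1 / 4 * (Λ * (N * Y ^ 6)))
    (h2 : |Y * (f0 - P) - Λ * N * Y ^ 6| ≤ Λ / 100 * N * Y ^ 6)
    (h3 : |2 * Y * (f1 - P) - Λ * N * (2 * Y) ^ 6| ≤ Λ / 100 * N * (2 * Y) ^ 6) :
    f2 - f0 ≤ N * V / β + 33 * Λ * N * Y ^ 5 := by
  rw [abs_le] at h2 h3
  have h5 : 0 < N * Y ^ 6 := by positivity
  obtain ⟨X, hX⟩ : ∃ X, X = Λ * (N * Y ^ 6) := ⟨_, rfl⟩
  have e10 : Λ * N * (2 * Y) ^ 6 = 64 * X := by rw [hX]; ring
  have e11 : Λ / 100 * N * (2 * Y) ^ 6 = 64 / 100 * X := by rw [hX]; ring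
  have e12 : Λ * N * Y ^ 6 = X := by rw [hX]; ring
  have e13 : Λ / 100 * N * Y ^ 6 = 1 / 100 * X := by rw [hX]; ring
  have hX0 : 0 < X := by rw [hX]; positivity
  rw [e10, e11] at h3
  rw [e12, e13] at h2
  rw [← hX] at hT
  have h6 : 4 / β ^ 2 * (N * (Y * (2 * V)) ^ 2) ≤ 1 / 2 * X := by
    have h7 : 4 / β ^ 2 ≤ 4 := by
      rw [div_le_iff₀ (by positivity)]
      nlinarith
    have h8 : N * (Y * (2 * V)) ^ 2 = 4 * D * (D * Y ^ 2) * (N * Y ^ 6) := by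
      rw [hV]; ring
    have h9 : D * Y ^ 2 ≤ 1 := by
      have : Y ^ 2 ≤ 1 := pow_le_one₀ hY.le (by linarith)
      nlinarith
    have h10 : 4 * D * (D * Y ^ 2) ≤ 4 * D := by nlinarith
    have h11 : N * (Y * (2 * V)) ^ 2 ≤ 4 * D * (N * Y ^ 6) := by
      rw [h8]
      exact mul_le_mul_of_nonneg_right h10 h5.le
    have h12 : 0 ≤ N * (Y * (2 * V)) ^ 2 := by positivity
    calc 4 / β ^ 2 * (N * (Y * (2 * V)) ^ 2) ≤ 4 * (N * (Y * (2 * V)) ^ 2) :=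
          mul_le_mul_of_nonneg_right h7 h12
      _ ≤ 4 * (4 * D * (N * Y ^ 6)) := by linarith
      _ ≤ 4 * (4 * (Λ / 100) * (N * Y ^ 6)) := by gcongr
      _ ≤ 1 / 2 * X := by rw [hX]; nlinarith
  have e14 : Y * (f2 - f0) = Y * f2 - Y * f0 := by ring
  have e15 : Y * (f1 - f0) = Y * f1 - Y * f0 := by ring
  have e16 : 2 * Y * (f1 - P) = 2 * (Y * f1) - 2 * (Y * P) := by ring
  have e17 : Y * (f0 - P) = Y * f0 - Y * P := by ring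
  rw [e16] at h3
  rw [e17] at h2
  have h8 : Y * (f2 - f0) ≤ Y * (N * V / β) + 33 * X := by
    rw [e15] at h1
    linarith [h2.1, h3.2]
  have h9 : Y * (N * V / β) + 33 * X = Y * (N * V / β + 33 * Λ * N * Y ^ 5) := by
    rw [hX]; ring
  rw [h9] at h8
  exact le_of_mul_le_mul_left h8 hY

/-- the ranges for `y` between `Y` and `4 Y` -/
lemma rng {Y y D S A : ℝ} (hY : 0 < Y) (h1 : Y ≤ y) (h4 : y ≤ 4 * Y) (hD : 0 < D) (hS : 0 < S)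
    (hA : 1024 ≤ A) : D * y ^ 3 ≤ A * (D * Y ^ 3) ∧ D * Y ^ 3 ≤ A * (D * y ^ 3) ∧
      0 < S * Y ^ 2 * (y / Y) ^ (5 : ℝ) ∧
      S * y ^ 2 ≤ A * (S * Y ^ 2 * (y / Y) ^ (5 : ℝ)) ∧
      S * Y ^ 2 * (y / Y) ^ (5 : ℝ) ≤ A * (S * y ^ 2) := by
  obtain ⟨r, hr⟩ : ∃ r, r = y / Y := ⟨_, rfl⟩
  have hyr : y = r * Y := by rw [hr]; field_simp
  have hr1 : 1 ≤ r := by rw [hr, le_div_iff₀ hY]; linarith
  have hr4 : r ≤ 4 := by rw [hr, div_le_iff₀ hY]; exact h4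
  have e5 : r ^ (5 : ℝ) = r ^ (5 : ℕ) := by
    rw [← Real.rpow_natCast]
    norm_num
  have hr3 : r ^ 3 ≤ 64 := by
    have := pow_le_pow_left₀ (by linarith : 0 ≤ r) hr4 3
    linarith
  have hr31 : 1 ≤ r ^ 3 := one_le_pow₀ hr1
  rw [← hr, e5, hyr]
  have h3 : 0 < D * Y ^ 3 := by positivity
  have h5 : 0 < S * Y ^ 2 * r ^ 2 := by positivity
  refine ⟨?_, ?_, by positivity, ?_, ?_⟩
  · have e : D * (r * Y) ^ 3 = D * Y ^ 3 * r ^ 3 := by ring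
    rw [e, mul_comm A]
    exact mul_le_mul_of_nonneg_left (by linarith) h3.le
  · have e : A * (D * (r * Y) ^ 3) = D * Y ^ 3 * (A * r ^ 3) := by ring
    rw [e]
    refine le_mul_of_one_le_right h3.le ?_
    nlinarith
  · have e : A * (S * Y ^ 2 * r ^ 5) = S * Y ^ 2 * r ^ 2 * (A * r ^ 3) := by ring
    have e2 : S * (r * Y) ^ 2 = S * Y ^ 2 * r ^ 2 := by ring
    rw [e, e2]
    refine le_mul_of_one_le_right h5.le ?_
    nlinarith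
  · have e : A * (S * (r * Y) ^ 2) = S * Y ^ 2 * r ^ 2 * A := by ring
    have e2 : S * Y ^ 2 * r ^ 5 = S * Y ^ 2 * r ^ 2 * r ^ 3 := by ring
    rw [e, e2]
    exact mul_le_mul_of_nonneg_left (by linarith) h5.le

/-- the powers of `n` at the end -/
lemma end_pow {N β b₁ b₀ d Λ Y Y' D V : ℝ} (hN : 0 < N) (hβ : 0 < β) (hΛ : 0 < Λ)
    (hY : Y = N ^ (-b₁)) (hY' : Y' = N ^ (-b₀)) (hD : D = N ^ (-d)) (hV : V = D * Y ^ 3)
    (f6 : N ^ (-(d + 3 * b₁ - 5 * b₀)) ≤ β * Λ / 40)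
    (f7 : N ^ (-(5 * b₁ - 5 * b₀)) ≤ 1 / 1000) :
    N * V / β + (33 * Λ * N + Λ / 10 * N) * Y ^ 5 < Λ / 10 * N * Y' ^ 5 := by
  have h1 : Y' ^ 5 = N ^ (-(5 * b₀)) := by
    rw [hY', ← Real.rpow_natCast, ← Real.rpow_mul hN.le]
    congr 1
    push_cast
    ring
  have h2 : Y ^ 5 = N ^ (-(5 * b₁ - 5 * b₀)) * Y' ^ 5 := by
    rw [h1, hY, ← Real.rpow_natCast, ← Real.rpow_mul hN.le, ← Real.rpow_add hN]
    congr 1
    push_cast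
    ring
  have h3 : V = N ^ (-(d + 3 * b₁ - 5 * b₀)) * Y' ^ 5 := by
    rw [h1, hV, hD, hY, ← Real.rpow_natCast, ← Real.rpow_mul hN.le, ← Real.rpow_add hN,
      ← Real.rpow_add hN]
    congr 1
    push_cast
    ring
  have hY'0 : 0 < Y' := by rw [hY']; exact Real.rpow_pos_of_pos hN _
  have h5 : 0 < Y' ^ 5 := by positivity
  have h6 : Y ^ 5 ≤ 1 / 1000 * Y' ^ 5 := by
    rw [h2]
    exact mul_le_mul_of_nonneg_right f7 h5.le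
  have h7 : V ≤ β * Λ / 40 * Y' ^ 5 := by
    rw [h3]
    exact mul_le_mul_of_nonneg_right f6 h5.le
  have h8 : N * V / β ≤ Λ * N / 40 * Y' ^ 5 := by
    rw [div_le_iff₀ hβ]
    calc N * V ≤ N * (β * Λ / 40 * Y' ^ 5) := mul_le_mul_of_nonneg_left h7 hN.le
      _ = _ := by ring
  have h9 : (33 * Λ * N + Λ / 10 * N) * Y ^ 5 ≤ (33 * Λ * N + Λ / 10 * N) * (1 / 1000 * Y' ^ 5) :=
    mul_le_mul_of_nonneg_left h6 (by positivity)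
  obtain ⟨X, hX⟩ : ∃ X, X = Λ * N * Y' ^ 5 := ⟨_, rfl⟩
  have h10 : 0 < X := by rw [hX]; positivity
  have e1 : Λ * N / 40 * Y' ^ 5 = X / 40 := by rw [hX]; ring
  have e2 : (33 * Λ * N + Λ / 10 * N) * (1 / 1000 * Y' ^ 5) = 331 / 10000 * X := by rw [hX]; ring
  have e3 : Λ / 10 * N * Y' ^ 5 = X / 10 := by rw [hX]; ring
  rw [e1] at h8
  rw [e2] at h9
  rw [e3]
  linarith

/-- the small terms of the contiguity -/
lemma small_ct {n : ℕ} {β b₁ Λ Y : ℝ} (hn : 1 ≤ n) (hβ : 0 < β) (hΛ : 0 < Λ)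
    (hY : Y = (n : ℝ) ^ (-b₁)) (hY1 : Y ≤ 1)
    (f5 : (2 + β) * (4 / Λ) * (1 + Real.log n) ≤ (n : ℝ) ^ (1 - 6 * b₁)) :
    Y * β + Real.log (2 * n) ≤ 1 / 4 * (Λ * (n * Y ^ 6)) := by
  have hn1 : (1 : ℝ) ≤ n := by exact_mod_cast hn
  have hn0 : (0 : ℝ) < n := by linarith
  have h8 : Real.log (2 * n) = Real.log 2 + Real.log n := Real.log_mul (by norm_num) hn0.ne'
  have h9 := Real.log_two_lt_d9
  have h10 : 0 ≤ Real.log n := Real.log_nonneg hn1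
  have h11 : n * Y ^ 6 = (n : ℝ) ^ (1 - 6 * b₁) := by
    rw [hY, ← Real.rpow_natCast, ← Real.rpow_mul hn0.le]
    nth_rewrite 1 [← Real.rpow_one (n : ℝ)]
    rw [← Real.rpow_add hn0]
    congr 1
    push_cast
    ring
  rw [← h11] at f5
  have h12 : Y * β + Real.log (2 * n) ≤ (2 + β) * (1 + Real.log n) := by
    rw [h8]
    nlinarith
  have h13 : (2 + β) * (1 + Real.log n) = Λ / 4 * ((2 + β) * (4 / Λ) * (1 + Real.log n)) := by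
    field_simp
  rw [h13] at h12
  refine h12.trans ?_
  have := mul_le_mul_of_nonneg_left f5 (by positivity : 0 ≤ Λ / 4)
  linarith

/-- the flow inequality at the touching points -/
lemma piece_kd {Φ K : ℕ → ℝ → ℝ → ℝ} {n : ℕ} {A β D S Y V y : ℝ} (hn0 : (0 : ℝ) < n)
    (hβ0 : 0 < β) (hA1 : 1024 ≤ A) (hY0 : 0 < Y) (hD0 : 0 < D) (hS0 : 0 < S) (hV0 : 0 < V)
    (hV : V = D * Y ^ 3) (h1 : Y ≤ y) (h4 : y ≤ 4 * Y)
    (gD : ∀ y : ℝ, Y ≤ y → y ≤ A * Y → ∀ V : ℝ, D * y ^ 3 ≤ A * V → V ≤ A * (D * y ^ 3) →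
      ∀ L : ℝ, S * y ^ 2 ≤ A * L → L ≤ A * (S * y ^ 2) →
      1 + L / 2 ≤ Asec β Φ n y V (2 * V) → Asec β Φ n y V (2 * V) ≤ 1 + L →
      K n y (2 * V) - K n y V ≤ 2 * (n * y * V / β) * L)
    (he : 2 * β / n * sec (Φ n y) V (2 * V) = 1 + S * Y ^ 2 * (y / Y) ^ (5 : ℝ)) :
    2 * β / n * (K n y (2 * V) - K n y V) < 5 * (S * Y ^ 2 * (y / Y) ^ (5 : ℝ)) * y * V := by
  have hy0 : 0 < y := lt_of_lt_of_le hY0 h1
  obtain ⟨r1, r2, r3, r4, r5⟩ := rng (D := D) (S := S) (A := A) hY0 h1 h4 hD0 hS0 hA1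
  obtain ⟨L, hLd⟩ : ∃ L, L = S * Y ^ 2 * (y / Y) ^ (5 : ℝ) := ⟨_, rfl⟩
  rw [← hLd] at he r3 r4 r5 ⊢
  rw [← hV] at r1 r2
  have h1 := gD y h1 (by nlinarith) V r1 r2 L r4 r5 (by unfold Asec; linarith)
    (by unfold Asec; linarith)
  have h2 := mul_le_mul_of_nonneg_left h1 (by positivity : 0 ≤ 2 * β / n)
  refine lt_of_le_of_lt h2 ?_
  have h3 : 2 * β / n * (2 * (n * y * V / β) * L) = 4 * (L * y * V) := by
    field_simp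
    ring
  rw [h3]
  have h4 : 0 < L * y * V := by positivity
  linarith

/-- the entropy is small for a small secant -/
lemma piece_ls {Φ K : ℕ → ℝ → ℝ → ℝ} {n : ℕ} {A β D S Y V y Λ : ℝ} (hn0 : (0 : ℝ) < n)
    (hΛ : 0 < Λ) (hA1 : 1024 ≤ A) (hA2 : Λ ≤ A) (hY0 : 0 < Y) (hD0 : 0 < D) (hS0 : 0 < S)
    (hV : V = D * Y ^ 3) (h1 : Y ≤ y) (h4 : y ≤ 4 * Y)
    (gS : ∀ y : ℝ, Y ≤ y → y ≤ A * Y → ∀ V : ℝ, D * y ^ 3 ≤ A * V → V ≤ A * (D * y ^ 3) →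
      Asec β Φ n y V (2 * V) ≤ 1 + A * (S * y ^ 2) →
      n * V / β - A * (n * y ^ 5) ≤ Φ n y (2 * V) - Φ n y 0 →
      K n y (2 * V) ≤ Λ / 10 * (n * y ^ 6))
    (hK0 : 9 / 10 * Λ * (n * y ^ 6) ≤ K n y 0)
    (he : 2 * β / n * sec (Φ n y) V (2 * V) ≤ 1 + S * Y ^ 2 * (y / Y) ^ (5 : ℝ))
    (h2 : n * V / β - Λ / 10 * n * y ^ 5 ≤ Φ n y (2 * V) - Φ n y 0) :
    K n y (2 * V) + 5 * (Λ / 10 * n) * y ^ 6 < K n y 0 := by
  have hy0 : 0 < y := lt_of_lt_of_le hY0 h1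
  obtain ⟨r1, r2, r3, r4, r5⟩ := rng (D := D) (S := S) (A := A) hY0 h1 h4 hD0 hS0 hA1
  rw [← hV] at r1 r2
  have h5 : 0 < n * y ^ 5 := by positivity
  have h6 : 0 < n * y ^ 6 := by positivity
  have hup : Λ / 10 * n * y ^ 5 ≤ A * (n * y ^ 5) := by
    have e : Λ / 10 * n * y ^ 5 = Λ / 10 * (n * y ^ 5) := by ring
    rw [e]
    exact mul_le_mul_of_nonneg_right (by linarith) h5.le
  have h3 := gS y h1 (by nlinarith) V r1 r2 (by unfold Asec; linarith) (by linarith)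
  have h7 := mul_pos hΛ h6
  have e : 5 * (Λ / 10 * n) * y ^ 6 = 1 / 2 * (Λ * (n * y ^ 6)) := by ring
  rw [e]
  linarith

/-- the entropy is small for a negative response -/
lemma piece_lm {Φ K : ℕ → ℝ → ℝ → ℝ} {n : ℕ} {A β D Y Y' V y Λ : ℝ} (hn0 : (0 : ℝ) < n)
    (hβ0 : 0 < β) (hΛ : 0 < Λ) (hA1 : 1024 ≤ A) (hA2 : Λ ≤ A) (hA3 : 20 / Λ ≤ A)
    (hA4 : 10 / (β * Λ) ≤ A) (hY0 : 0 < Y) (hD0 : 0 < D) (hV0 : 0 < V)
    (hV : V = D * Y ^ 3) (hYy : Y ≤ y) (hyY : y ≤ Y')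
    (gM : ∀ y : ℝ, Y ≤ y → y ≤ Y' → ∀ W : ℝ, y ^ 5 ≤ A * W → W ≤ A * (D * y ^ 3) →
      Φ n y W - Φ n y 0 ≤ n * W / (2 * β) - n * y ^ 5 / A →
      n * W / (2 * β) - A * (n * y ^ 5) ≤ Φ n y W - Φ n y 0 →
      K n y W ≤ Λ / 10 * (n * y ^ 6))
    (hK0 : 9 / 10 * Λ * (n * y ^ 6) ≤ K n y 0)
    (h7 : 0 ≤ Φ n y (2 * V) - Φ n y 0)
    (h1 : Φ n y (2 * V) - Φ n y 0 ≤ n * V / β - Λ / 10 * n / 2 * y ^ 5)
    (h2 : n * V / β - Λ / 10 * n * y ^ 5 ≤ Φ n y (2 * V) - Φ n y 0) :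
    K n y (2 * V) + 5 * (Λ / 10 * n) * y ^ 6 < K n y 0 := by
  have hy0 : 0 < y := lt_of_lt_of_le hY0 hYy
  have h5 : 0 < n * y ^ 5 := by positivity
  have h6 : 0 < n * y ^ 6 := by positivity
  have h8 : Y ^ 3 ≤ y ^ 3 := pow_le_pow_left₀ hY0.le hYy 3
  have eW : n * (2 * V) / (2 * β) = n * V / β := by field_simp
  have hWlo : y ^ 5 ≤ A * (2 * V) := by
    have h9 : Λ / 20 * n * y ^ 5 ≤ n * V / β := by linarith
    have h10 : y ^ 5 ≤ 20 / (β * Λ) * V := by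
      have e : n * V / β = Λ / 20 * n * (20 / (β * Λ) * V) := by
        field_simp
      rw [e] at h9
      exact le_of_mul_le_mul_left h9 (by positivity)
    have h11 : 20 / (β * Λ) * V = 10 / (β * Λ) * (2 * V) := by ring
    rw [h11] at h10
    exact h10.trans (mul_le_mul_of_nonneg_right hA4 (by positivity))
  have hWup : 2 * V ≤ A * (D * y ^ 3) := by
    have h9 : V ≤ D * y ^ 3 := by
      rw [hV]
      exact mul_le_mul_of_nonneg_left h8 hD0.le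
    have h10 : 0 < D * y ^ 3 := by positivity
    nlinarith
  have hlo : n * y ^ 5 / A ≤ Λ / 10 * n / 2 * y ^ 5 := by
    rw [div_le_iff₀ (by linarith)]
    have h10 : 20 ≤ A * Λ := by
      rw [div_le_iff₀ hΛ] at hA3
      exact hA3
    have e : Λ / 10 * n / 2 * y ^ 5 * A = (n * y ^ 5) * (A * Λ) / 20 := by ring
    rw [e]
    nlinarith
  have hup : Λ / 10 * n * y ^ 5 ≤ A * (n * y ^ 5) := by
    have e : Λ / 10 * n * y ^ 5 = Λ / 10 * (n * y ^ 5) := by ring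
    rw [e]
    exact mul_le_mul_of_nonneg_right (by linarith) h5.le
  have h3 := gM y hYy hyY (2 * V) hWlo hWup (by rw [eW]; linarith) (by rw [eW]; linarith)
  have h7 := mul_pos hΛ h6
  have e : 5 * (Λ / 10 * n) * y ^ 6 = 1 / 2 * (Λ * (n * y ^ 6)) := by ring
  rw [e]
  linarith

/-- **The start of the flow.** -/
theorem start_of {β b₁ b₀ a s d Λ : ℝ} (hβ : 1 < β) (hb₀ : 0 < b₀) (hb : b₀ < b₁) (hba : b₁ < a)
    (ha : b₁ < 1 / 6) (hd : 0 < d) (hbd : 5 * b₀ < 3 * b₁ + d) (hΛ : 0 < Λ)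
    {Φ K : ℕ → ℝ → ℝ → ℝ}
    (dx : ∀ n : ℕ, 1 ≤ n → ∀ x : ℝ, 0 < x → x ≤ 1 / 2 → ∀ v : ℝ, 0 ≤ v →
      HasDerivAt (fun y => Φ n y v) (K n x v / x ^ 2) x)
    (j0 : ∀ n : ℕ, 1 ≤ n → ∀ x : ℝ, 0 < x → x ≤ 1 / 2 → ∀ v : ℝ, 0 ≤ v → Φ n x 0 ≤ Φ n x v)
    (mn : ∀ n : ℕ, 1 ≤ n → ∀ x y : ℝ, 0 < x → x ≤ y → y ≤ 1 / 2 →
      Φ n y 0 - Φ n x 0 ≤ K n y 0 * (1 / x - 1 / y))
    (ct : Ctg β Φ) (law : Law0 a Λ Φ)
    (hKD : KDiffU β b₁ s d Φ K) (hKS : KSmall β b₁ s d Φ K) (hKM : KMass β b₁ b₀ d Φ K) :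
    Start β b₁ s d Φ := by
  have hβ0 : 0 < β := by linarith
  obtain ⟨P, law⟩ := law
  obtain ⟨δ, hδ, hlaw⟩ := law (Λ / 100) (by positivity)
  obtain ⟨A, hA⟩ : ∃ A, A = 1024 + Λ + 20 / Λ + 10 / (β * Λ) := ⟨_, rfl⟩
  have hp1 : 0 ≤ 20 / Λ := by positivity
  have hp2 : 0 ≤ 10 / (β * Λ) := by positivity
  have hA1 : 1024 ≤ A := by rw [hA]; linarith
  have hA2 : Λ ≤ A := by rw [hA]; linarith
  have hA3 : 20 / Λ ≤ A := by rw [hA]; linarith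
  have hA4 : 10 / (β * Λ) ≤ A := by rw [hA]; linarith
  clear hp1 hp2 hA
  have e1 := ev_pow (show 0 < b₁ - b₀ by linarith) 4
  have e2 := ev_neg hb₀ (show 0 < min δ (1 / 2) / 2 by positivity)
  have e2' := ev_neg (show 0 < b₁ by linarith) (show (0 : ℝ) < 1 / 16 by norm_num)
  have e3 := ev_pow (show 0 < a - b₁ by linarith) 2
  have e5 := ev_log (show 0 < 1 - 6 * b₁ by linarith) ((2 + β) * (4 / Λ))
  have e6 := ev_neg (show 0 < d + 3 * b₁ - 5 * b₀ by linarith) (show 0 < β * Λ / 40 by positivity)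
  have e7 := ev_neg (show 0 < 5 * b₁ - 5 * b₀ by linarith) (show (0 : ℝ) < 1 / 1000 by norm_num)
  have e8 := ev_neg hd (show 0 < min (Λ / 100) (1 / 4) by positivity)
  unfold Start
  filter_upwards [hlaw, hKD A (by linarith), hKS A (by linarith) (Λ / 10) (by positivity),
    hKM A (by linarith) (Λ / 10) (by positivity), e1, e2, e2', e3, e5, e6, e7, e8,
    eventually_ge_atTop 1] with n hL gD gS gM f1 f2 f2' f3 f5 f6 f7 f8 hn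
  clear e1 e2 e2' e3 e5 e6 e7 e8 hlaw hKD hKS hKM law
  have hn1 : (1 : ℝ) ≤ n := by exact_mod_cast hn
  have hn0 : (0 : ℝ) < n := by linarith
  obtain ⟨Y, hY⟩ : ∃ Y, Y = (n : ℝ) ^ (-b₁) := ⟨_, rfl⟩
  obtain ⟨Y', hY'⟩ : ∃ Y', Y' = (n : ℝ) ^ (-b₀) := ⟨_, rfl⟩
  obtain ⟨D, hD⟩ : ∃ D, D = (n : ℝ) ^ (-d) := ⟨_, rfl⟩
  obtain ⟨S, hS⟩ : ∃ S, S = (n : ℝ) ^ (-s) := ⟨_, rfl⟩
  have hY0 : 0 < Y := by rw [hY]; exact Real.rpow_pos_of_pos hn0 _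
  have hY'0 : 0 < Y' := by rw [hY']; exact Real.rpow_pos_of_pos hn0 _
  have hD0 : 0 < D := by rw [hD]; exact Real.rpow_pos_of_pos hn0 _
  have hS0 : 0 < S := by rw [hS]; exact Real.rpow_pos_of_pos hn0 _
  rw [← hY] at gD gS gM f2' ⊢
  rw [← hY'] at gM f2
  rw [← hD] at gD gS gM f8 ⊢
  rw [← hS] at gD gS ⊢
  have hmin1 : Y' ≤ δ / 2 := f2.trans (by linarith [min_le_left δ (1 / 2)])
  have hmin2 : Y' ≤ 1 / 4 := f2.trans (by linarith [min_le_right δ (1 / 2)])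
  have hD4 : D ≤ 1 / 4 := f8.trans (min_le_right _ _)
  have hDL : D ≤ Λ / 100 := f8.trans (min_le_left _ _)
  -- `4 Y ≤ Y'`
  have h4Y : 4 * Y ≤ Y' := by
    have h1 : Y' = (n : ℝ) ^ (b₁ - b₀) * Y := by
      rw [hY', hY, ← Real.rpow_add hn0]
      congr 1
      ring
    rw [h1]
    exact mul_le_mul_of_nonneg_right f1 hY0.le
  obtain ⟨V, hV⟩ : ∃ V, V = D * Y ^ 3 := ⟨_, rfl⟩
  have hV0 : 0 < V := by rw [hV]; positivity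
  -- the law at `y` and `y / 2`
  have hhalf : ∀ y : ℝ, Y ≤ y → (n : ℝ) ^ (-a) ≤ y / 2 := by
    intro y hy
    have h1 : Y = (n : ℝ) ^ (a - b₁) * (n : ℝ) ^ (-a) := by
      rw [hY, ← Real.rpow_add hn0]
      congr 1
      ring
    have h2 : 2 * (n : ℝ) ^ (-a) ≤ Y := by
      rw [h1]
      exact mul_le_mul_of_nonneg_right f3 (Real.rpow_nonneg hn0.le _)
    linarith
  have hK0 : ∀ y : ℝ, Y ≤ y → y ≤ Y' → 9 / 10 * Λ * (n * y ^ 6) ≤ K n y 0 := by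
    intro y hy1 hy2
    have hy0 : 0 < y := lt_of_lt_of_le hY0 hy1
    exact k0_low hn0 hy0 hΛ (mn n hn (y / 2) y (by linarith) (by linarith) (by linarith))
      (hL y (by linarith [hhalf y hy1]) (by linarith))
      (hL (y / 2) (hhalf y hy1) (by linarith))
  -- contiguity at `Y`
  have hCT : Φ n Y (2 * V) - Φ n Y 0 ≤ n * V / β + 33 * Λ * n * Y ^ 5 := by
    have hV1 : V ≤ 1 := by
      rw [hV]
      have h1 : Y ^ 3 ≤ 1 := pow_le_one₀ hY0.le (by linarith)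
      nlinarith
    have h1 := ct n hn Y (2 * V) hY0 (by positivity) (by nlinarith)
    have e9 : Y * n * (2 * V) / (2 * β) * (At β Φ n Y (2 * V) - 1) =
        Y * (Φ n Y (2 * V) - Φ n Y 0) - Y * (n * V / β) := by
      unfold At
      field_simp
    rw [e9] at h1
    exact ct_up hn0 hY0 f2' hβ hΛ hV hD0 hD4 hDL h1
      (small_ct hn hβ0 hΛ hY (by linarith) f5)
      (hL Y (by linarith [hhalf Y le_rfl, hY0]) (by linarith))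
      (hL (2 * Y) (by linarith [hhalf Y le_rfl, hY0]) (by linarith))
  have hend := end_pow hn0 hβ0 hΛ hY hY' hD hV f6 f7
  have hJ := j0 n hn Y' hY'0 (by linarith) (2 * V) (by positivity)
  clear f1 f2 f2' f3 f5 f6 f7 f8 hhalf hL hmin1 ct mn
  have hΛn : 0 < Λ * n := by positivity
  have key := start (Φ := Φ n) (K := K n) (c := 2 * β / n) (m := n * V / β) (V := V) (Y := Y)
    (Y' := Y') (M := 4) (σ := S * Y ^ 2) (p := 5) (q := Λ / 10 * n) (k := 33 * Λ * n) hY0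
    (by norm_num) h4Y hV0 (by positivity)
    (fun y hy w hw => dx n hn y (lt_of_lt_of_le hY0 hy.1) (by linarith [hy.2]) w hw)
    ?_ hCT ?_ ?_ (by linarith) (by positivity) (by linarith) hend
  · rw [← hV]
    unfold Asec
    linarith
  · intro y hy he
    exact piece_kd hn0 hβ0 hA1 hY0 hD0 hS0 hV0 hV hy.1 hy.2 gD he
  · intro y hy h1 h2
    exact piece_ls hn0 hΛ hA1 hA2 hY0 hD0 hS0 hV hy.1 hy.2 gS (hK0 y hy.1 (hy.2.trans h4Y)) h1 h2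
  · intro y hy h1 h2
    have hYy : Y ≤ y := by linarith [hy.1]
    have hj := j0 n hn y (lt_of_lt_of_le hY0 hYy) (by linarith [hy.2]) (2 * V) (by positivity)
    exact piece_lm hn0 hβ0 hΛ hA1 hA2 hA3 hA4 hY0 hD0 hV0 hV hYy hy.2 gM (hK0 y hYy hy.2)
      (by linarith) h1 h2

end Vale.Agent.P146.H892
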