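import Vale.Agent.P146.H892.Desc

/-!
# P146: the start of the sharp flow, with its history

From the upper bound of the entropy for a small response (`LCin`), the sharp law without field and
contiguity: there is `y₃ ∈ [n^(-b₁), 4 n^(-b₁)]` where the response over `(V, 2 V)` is at least
`1 + n^(-s) y₃²`, `V = κ n^(-d) y₃³`, and all the responses over `(0, W)`, `W ≤ n^(-d₀) z³`,
`y₃ ≤ z ≤ 2 y₃`, are at least `1`.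
-/

open Set Filter Topology

namespace Vale.Agent.P146.H892

open Vale.Agent.P146.H122 Vale.Agent.P146.H178

/-- The entropy is small if the response is small; the a-priori information is the history. -/
def LCin (β b₁ b₀ d0 s : ℝ) (Φ K : ℕ → ℝ → ℝ → ℝ) : Prop := ∀ A : ℝ, 1 ≤ A → ∀ ε : ℝ, 0 < ε →
  ∀ᶠ n : ℕ in atTop, ∀ y : ℝ, (n : ℝ) ^ (-b₁) ≤ y → y ≤ (n : ℝ) ^ (-b₀) →
    ∀ V : ℝ, y ^ 5 ≤ A * V → V ≤ A * ((n : ℝ) ^ (-d0) * y ^ 3) →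
    (2 * V ≤ A * y ^ 5 ∨ ∃ z ∈ Icc y (2 * y), 1 ≤ At β Φ n z (2 * V)) →
    (∃ w : ℝ, 0 ≤ w ∧ 2 * w ≤ V ∧ Asec β Φ n y w V ≤ 1 + A * ((n : ℝ) ^ (-s) * y ^ 2)) →
    K n y V ≤ ε * (n * y ^ 6)

/-- The start of the sharp flow and its history. -/
def StartH (β b₁ d0 s d : ℝ) (Φ : ℕ → ℝ → ℝ → ℝ) : Prop := ∀ᶠ n : ℕ in atTop, ∃ y3 κ : ℝ,
  (n : ℝ) ^ (-b₁) ≤ y3 ∧ y3 ≤ 4 * (n : ℝ) ^ (-b₁) ∧ 1 ≤ κ ∧ κ ≤ 64 ∧
  (n : ℝ) ^ (-s) * y3 ^ 2 ≤ Asec β Φ n y3 (κ * ((n : ℝ) ^ (-d) * y3 ^ 3))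
    (2 * (κ * ((n : ℝ) ^ (-d) * y3 ^ 3))) - 1 ∧
  ∀ z ∈ Icc y3 (2 * y3), ∀ W : ℝ, 0 < W → W ≤ (n : ℝ) ^ (-d0) * z ^ 3 → 1 ≤ At β Φ n z W

/-- the increment of `Φ y 0` from the law at `y` and `y / 2` -/
lemma dphi_low {N y Λ P f1 f2 : ℝ} (hN : 0 < N) (hy : 0 < y) (hΛ : 0 < Λ)
    (h3 : |y * (f1 - P) - Λ * N * y ^ 6| ≤ Λ / 100 * N * y ^ 6)
    (h4 : |y / 2 * (f2 - P) - Λ * N * (y / 2) ^ 6| ≤ Λ / 100 * N * (y / 2) ^ 6) :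
    9 / 10 * (Λ * (N * y ^ 6)) ≤ y * (f1 - f2) := by
  rw [abs_le] at h3 h4
  obtain ⟨X, hX⟩ : ∃ X, X = Λ * (N * y ^ 6) := ⟨_, rfl⟩
  have hX0 : 0 < X := by rw [hX]; positivity
  have e5 : Λ * N * (y / 2) ^ 6 = X / 64 := by rw [hX]; ring
  have e6 : Λ / 100 * N * (y / 2) ^ 6 = X / 6400 := by rw [hX]; ring
  have e7 : Λ * N * y ^ 6 = X := by rw [hX]; ring
  have e8 : Λ / 100 * N * y ^ 6 = X / 100 := by rw [hX]; ring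
  rw [e5, e6] at h4
  rw [e7, e8] at h3
  rw [← hX]
  have h5 := h3.1
  have h6 := h4.2
  linarith

/-- the entropy at the top of the anchor -/
lemma k1_low {N y Λ V p0 q0 pV qV KV : ℝ} (hN : 0 < N) (hy : 0 < y) (hΛ : 0 < Λ)
    (h1 : 9 / 10 * (Λ * (N * y ^ 6)) ≤ y * (p0 - q0))
    (hm : pV - qV ≤ KV * (1 / (y / 2) - 1 / y)) (hp : p0 ≤ pV) (hq : qV ≤ q0 + N * V / 2)
    (hV : V ≤ Λ / 2 * y ^ 5) : 1 / 2 * Λ * (N * y ^ 6) ≤ KV := by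
  have h2 : 1 / (y / 2) - 1 / y = 1 / y := by
    field_simp
    norm_num
  rw [h2, mul_one_div, le_div_iff₀ hy] at hm
  have h3 : N * V * y ≤ N * (Λ / 2 * y ^ 5) * y := by gcongr
  have h4 : N * (Λ / 2 * y ^ 5) * y = 1 / 2 * (Λ * (N * y ^ 6)) := by ring
  have h5 : (p0 - q0 - N * V / 2) * y ≤ (pV - qV) * y :=
    mul_le_mul_of_nonneg_right (by linarith) hy.le
  have h6 : (p0 - q0 - N * V / 2) * y = y * (p0 - q0) - N * V * y / 2 := by ring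
  rw [h6] at h5
  linarith [show 1 / 2 * Λ * (N * y ^ 6) = 1 / 2 * (Λ * (N * y ^ 6)) by ring,
    show 0 ≤ Λ * (N * y ^ 6) by positivity]

/-- **The junction, one `n`.** -/
theorem junction_pt {Φ K : ℝ → ℝ → ℝ} {c N Λ β A D D2 S Y V : ℝ} {VB : ℝ → ℝ}
    (hN : 0 < N) (hΛ : 0 < Λ) (hc : c = 2 * β / N) (hβ : 0 < β) (hD : 0 < D) (hD2 : 0 < D2)
    (hS : 0 < S) (hY : 0 < Y) (hV : V = 64 * (D2 * Y ^ 3)) (hDD : 256 * D2 ≤ D)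
    (hYD : Y ^ 2 * 1024 ≤ D2) (hA : 1024 ≤ A)
    (hVB : ∀ y ∈ Icc Y (4 * Y), VB y = D * y ^ 3)
    (cv : ∀ x ∈ Icc Y (4 * Y), ConcaveOn ℝ (Ici 0) (Φ x))
    (dx : ∀ x ∈ Icc Y (4 * Y), ∀ v, 0 ≤ v → HasDerivAt (fun y => Φ y v) (K x v / x ^ 2) x)
    (LC : ∀ y ∈ Icc Y (4 * Y), ∀ V, y ^ 5 ≤ A * V → V ≤ A * (D * y ^ 3) →
      (2 * V ≤ A * y ^ 5 ∨ ∃ z ∈ Icc y (2 * y), 1 ≤ c * sec (Φ z) 0 (2 * V)) →
      (∃ w, 0 ≤ w ∧ 2 * w ≤ V ∧ c * sec (Φ y) w V ≤ 1 + A * (S * y ^ 2)) →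
      K y V ≤ Λ / 10 * (N * y ^ 6))
    (K0 : ∀ y ∈ Icc Y (4 * Y), 9 / 10 * Λ * (N * y ^ 6) ≤ K y 0)
    (CT : Φ Y (2 * V) - Φ Y 0 ≤ N * V / β + 33 * Λ * N * Y ^ 5)
    (anc : ∀ y ∈ Icc Y (4 * Y), 1 ≤ c * sec (Φ y) 0 (VB y)) :
    ∃ y ∈ Icc Y (4 * Y), 1 + S * y ^ 2 ≤ c * sec (Φ y) V (2 * V) := by
  by_contra hcon
  push Not at hcon
  have hV0 : 0 < V := by rw [hV]; positivity
  have hc0 : 0 < c := by rw [hc]; positivity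
  -- the history
  have hist : ∀ y ∈ Icc Y (4 * Y), ∀ W, 0 < W → W ≤ 4 * V → 1 ≤ c * sec (Φ y) 0 W := by
    intro y hy W hW0 hW
    have hy0 : 0 < y := lt_of_lt_of_le hY hy.1
    have h1 : W ≤ VB y := by
      rw [hVB y hy]
      have h2 : Y ^ 3 ≤ y ^ 3 := pow_le_pow_left₀ hY.le hy.1 3
      have h3 : 0 < Y ^ 3 := by positivity
      calc W ≤ 4 * V := hW
        _ = 256 * D2 * Y ^ 3 := by rw [hV]; ring
        _ ≤ D * Y ^ 3 := mul_le_mul_of_nonneg_right hDD h3.le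
        _ ≤ D * y ^ 3 := mul_le_mul_of_nonneg_left h2 hD.le
    have h2 : sec (Φ y) 0 (VB y) ≤ sec (Φ y) 0 W :=
      sec_anti (cv y hy) le_rfl le_rfl h1 hW0 (lt_of_lt_of_le hW0 h1)
    have h3 := mul_le_mul_of_nonneg_left h2 hc0.le
    linarith [anc y hy]
  -- the entropy is small
  have hK : ∀ y ∈ Icc Y (4 * Y), K y (2 * V) ≤ Λ / 10 * (N * y ^ 6) := by
    intro y hy
    have hy0 : 0 < y := lt_of_lt_of_le hY hy.1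
    have h3 : 0 < D2 * Y ^ 3 := by positivity
    have hy5 : y ^ 5 ≤ 1024 * Y ^ 5 := by
      have := pow_le_pow_left₀ hy0.le hy.2 5
      linarith [show (4 * Y) ^ 5 = 1024 * Y ^ 5 by ring]
    refine LC y hy (2 * V) ?_ ?_ ?_ ?_
    · have h4 : 1024 * Y ^ 5 ≤ D2 * Y ^ 3 := by
        have : 1024 * Y ^ 5 = Y ^ 2 * 1024 * Y ^ 3 := by ring
        rw [this]
        exact mul_le_mul_of_nonneg_right hYD (by positivity)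
      have h5 : D2 * Y ^ 3 ≤ A * (2 * V) := by
        rw [hV]
        nlinarith
      linarith
    · have h4 : 2 * V ≤ D * Y ^ 3 := by
        have : 2 * V = 128 * D2 * Y ^ 3 := by rw [hV]; ring
        rw [this]
        exact mul_le_mul_of_nonneg_right (by linarith) (by positivity)
      have h5 : D * Y ^ 3 ≤ D * y ^ 3 :=
        mul_le_mul_of_nonneg_left (pow_le_pow_left₀ hY.le hy.1 3) hD.le
      have h6 : 0 < D * y ^ 3 := by positivity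
      nlinarith
    · right
      exact ⟨y, ⟨le_rfl, by linarith⟩, hist y hy (2 * (2 * V)) (by positivity) (by linarith)⟩
    · refine ⟨V, hV0.le, le_rfl, (hcon y hy).le.trans ?_⟩
      have : 0 < S * y ^ 2 := by positivity
      nlinarith
  have hd := drop (Φ := Φ) (K := K) (W := 2 * V) (Y0 := Y) (Y1 := 4 * Y)
    (g0 := N * V / β + 33 * Λ * N * Y ^ 5) (q := Λ / 10 * N) hY
    (fun y hy => dx y hy (2 * V) (by positivity)) (fun y hy => dx y hy 0 le_rfl) CT ?_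
  · have h1 := hd (4 * Y) ⟨by linarith, le_rfl⟩
    have h2 := hist (4 * Y) ⟨by linarith, le_rfl⟩ (2 * V) (by positivity) (by linarith)
    have h3 : c * sec (Φ (4 * Y)) 0 (2 * V) = β / (N * V) * (Φ (4 * Y) (2 * V) - Φ (4 * Y) 0) := by
      rw [hc]
      unfold sec
      rw [sub_zero]
      field_simp
    rw [h3] at h2
    have h4 : N * V / β ≤ Φ (4 * Y) (2 * V) - Φ (4 * Y) 0 := by
      have h5 := mul_le_mul_of_nonneg_left h2 (by positivity : 0 ≤ N * V / β)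
      have e : N * V / β * (β / (N * V) * (Φ (4 * Y) (2 * V) - Φ (4 * Y) 0)) =
          Φ (4 * Y) (2 * V) - Φ (4 * Y) 0 := by
        field_simp
      rw [e] at h5
      linarith
    have h5 : 0 < Λ * N * Y ^ 5 := by positivity
    have e5 : Λ / 10 * N * ((4 * Y) ^ 5 - Y ^ 5) = 1023 / 10 * (Λ * N * Y ^ 5) := by ring
    rw [e5] at h1
    linarith
  · intro y hy _
    have hyI : y ∈ Icc Y (4 * Y) := ⟨hy.1, hy.2.le⟩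
    have hy0 : 0 < y := lt_of_lt_of_le hY hy.1
    have h1 := hK y hyI
    have h2 := K0 y hyI
    have h3 : 0 < Λ * (N * y ^ 6) := by positivity
    linarith [show 5 * (Λ / 10 * N) * y ^ 6 = 1 / 2 * (Λ * (N * y ^ 6)) by ring]

/-- the field of the anchor near `Y` -/
lemma VA_eq {c₁ D y1 Y z : ℝ} (hD1 : D ≤ 1) (hz : 0 < z) (hz8 : z ≤ 8 * Y)
    (h : 8 * Y ≤ c₁ * y1 ^ 3) : VA c₁ D y1 z = D * z ^ 3 := by
  unfold VA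
  refine min_eq_right ?_
  have h1 : D * z ≤ c₁ * y1 ^ 3 := by nlinarith
  calc D * z ^ 3 = D * z * z ^ 2 := by ring
    _ ≤ c₁ * y1 ^ 3 * z ^ 2 := mul_le_mul_of_nonneg_right h1 (by positivity)

/-- the responses over `(0, W)` from the anchor -/
lemma hist_pt {Φ : ℝ → ℝ → ℝ} {c S D z : ℝ} {VB : ℝ} (hc : 0 < c) (hS : 0 < S)
    (cv : ConcaveOn ℝ (Ici 0) (Φ z)) (hVB : VB = D * z ^ 3)
    (anc : 1 + S * z ^ 2 ≤ c * sec (Φ z) 0 VB) {W : ℝ} (hW : 0 < W) (hWz : W ≤ D * z ^ 3) :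
    1 ≤ c * sec (Φ z) 0 W := by
  rw [← hVB] at hWz
  have h2 : sec (Φ z) 0 VB ≤ sec (Φ z) 0 W :=
    sec_anti cv le_rfl le_rfl hWz hW (lt_of_lt_of_le hW hWz)
  have h3 := mul_le_mul_of_nonneg_left h2 hc.le
  nlinarith [mul_nonneg hS.le (sq_nonneg z)]

/-- the scale at the start -/
lemma kap_pt {D2 Y y V : ℝ} (hD2 : 0 < D2) (hY : 0 < Y) (h1 : Y ≤ y) (h2 : y ≤ 4 * Y)
    (hV : V = 64 * (D2 * Y ^ 3)) :
    ∃ κ : ℝ, 1 ≤ κ ∧ κ ≤ 64 ∧ κ * (D2 * y ^ 3) = V := by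
  have hy : 0 < y := lt_of_lt_of_le hY h1
  have h3 : Y ^ 3 ≤ y ^ 3 := pow_le_pow_left₀ hY.le h1 3
  have h4 : y ^ 3 ≤ 64 * Y ^ 3 := by
    have := pow_le_pow_left₀ hy.le h2 3
    linarith [show (4 * Y) ^ 3 = 64 * Y ^ 3 by ring]
  have h5 : 0 < y ^ 3 := by positivity
  refine ⟨64 * Y ^ 3 / y ^ 3, ?_, ?_, ?_⟩
  · rw [le_div_iff₀ h5]; linarith
  · rw [div_le_iff₀ h5]; linarith
  · rw [hV]
    field_simp

/-- the numerical facts at one `n` -/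
structure Nm (n : ℕ) (β Λ A Y y1 D D2 S : ℝ) : Prop where
  hn : 1 ≤ n
  hβ : 1 < β
  hΛ : 0 < Λ
  hA1 : 1024 ≤ A
  hA2 : 25 * Λ ≤ A
  hA3 : 2 / Λ ≤ A
  hY0 : 0 < Y
  hy10 : 0 < y1
  hD0 : 0 < D
  hD20 : 0 < D2
  hS0 : 0 < S
  hD1 : D ≤ 1
  hy1D : y1 ^ 2 ≤ D
  hDD : 256 * D2 ≤ D
  hYD : Y ^ 2 * 1024 ≤ D2
  h8Y : 8 * Y ≤ Λ / 2 * y1 ^ 3
  h8Yy : 8 * Y ≤ y1
  hY16 : Y ≤ 1 / 16
  hy14 : y1 ≤ 1 / 4
  hD4 : 64 * D2 ≤ 1 / 4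
  hDL : 64 * D2 ≤ Λ / 100

/-- the start at one `n` -/
lemma startH_pt {n : ℕ} {β Λ A Y y1 D D2 S : ℝ} {Φ K : ℕ → ℝ → ℝ → ℝ}
    (h : Nm n β Λ A Y y1 D D2 S)
    (cv : ∀ x : ℝ, 0 < x → x ≤ 1 / 2 → ConcaveOn ℝ (Ici 0) (Φ n x))
    (dx : ∀ x : ℝ, 0 < x → x ≤ 1 / 2 → ∀ v : ℝ, 0 ≤ v →
      HasDerivAt (fun y => Φ n y v) (K n x v / x ^ 2) x)
    (LC : ∀ y ∈ Icc Y y1, ∀ V, y ^ 5 ≤ A * V → V ≤ A * (D * y ^ 3) →
      (2 * V ≤ A * y ^ 5 ∨ ∃ z ∈ Icc y (2 * y), 1 ≤ At β Φ n z (2 * V)) →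
      (∃ w, 0 ≤ w ∧ 2 * w ≤ V ∧ Asec β Φ n y w V ≤ 1 + A * (S * y ^ 2)) →
      K n y V ≤ Λ / 10 * (n * y ^ 6))
    (hK0 : ∀ y ∈ Icc Y y1, 9 / 10 * Λ * (n * y ^ 6) ≤ K n y 0)
    (hK1 : ∀ V, 0 < V → V ≤ Λ / 2 * y1 ^ 5 → 1 / 2 * Λ * (n * y1 ^ 6) ≤ K n y1 V)
    (hCT : Φ n Y (2 * (64 * (D2 * Y ^ 3))) - Φ n Y 0 ≤
      n * (64 * (D2 * Y ^ 3)) / β + 33 * Λ * n * Y ^ 5) :
    ∃ y3 κ : ℝ, Y ≤ y3 ∧ y3 ≤ 4 * Y ∧ 1 ≤ κ ∧ κ ≤ 64 ∧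
      S * y3 ^ 2 ≤ Asec β Φ n y3 (κ * (D2 * y3 ^ 3)) (2 * (κ * (D2 * y3 ^ 3))) - 1 ∧
      ∀ z ∈ Icc y3 (2 * y3), ∀ W : ℝ, 0 < W → W ≤ D * z ^ 3 → 1 ≤ At β Φ n z W := by
  obtain ⟨hn, hβ, hΛ, hA1, hA2, hA3, hY0, hy10, hD0, hD20, hS0, hD1, hy1D, hDD, hYD, h8Y, h8Yy,
    hY16, hy14, hD4, hDL⟩ := h
  have hβ0 : 0 < β := by linarith
  have hn1 : (1 : ℝ) ≤ n := by exact_mod_cast hn
  have hn0 : (0 : ℝ) < n := by linarith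
  have hYy1 : Y ≤ y1 := by linarith
  obtain ⟨V, hV⟩ : ∃ V, V = 64 * (D2 * Y ^ 3) := ⟨_, rfl⟩
  obtain ⟨c, hc⟩ : ∃ c, c = 2 * β / (n : ℝ) := ⟨_, rfl⟩
  have hc0 : 0 < c := by rw [hc]; positivity
  have eA : ∀ z v, At β Φ n z v = c * sec (Φ n z) 0 v := by
    intro z v
    rw [At_eq, hc]
    rfl
  have eS : ∀ z w v, Asec β Φ n z w v = c * sec (Φ n z) w v := by
    intro z w v
    rw [hc]
    rfl
  simp only [eA, eS] at LC ⊢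
  rw [← hV] at hCT
  have anc := anchor_pt (Φ := Φ n) (K := K n) (c := c) (N := (n : ℝ)) (Λ := Λ) (D := D) (S := S)
    (A := A) (Y := Y) (y1 := y1) hn0 hΛ hc0 hD0 hS0 hY0 hYy1 hy1D (by linarith) hA2 hA3
    (fun x hx => cv x (lt_of_lt_of_le hY0 hx.1) (by linarith [hx.2]))
    (fun x hx v hv => dx x (lt_of_lt_of_le hY0 hx.1) (by linarith [hx.2]) v hv) LC hK0 hK1
  have hsub : ∀ x ∈ Icc Y (4 * Y), x ∈ Icc Y y1 := fun x hx => ⟨hx.1, by linarith [hx.2]⟩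
  obtain ⟨y3, hy3, h3⟩ := junction_pt (Φ := Φ n) (K := K n) (c := c) (N := (n : ℝ)) (Λ := Λ)
    (β := β) (A := A) (D := D) (D2 := D2) (S := S) (Y := Y) (V := V)
    (VB := VA (Λ / 2) D y1) hn0 hΛ hc hβ0 hD0 hD20 hS0 hY0 hV hDD hYD hA1
    (fun y hy => VA_eq hD1 (lt_of_lt_of_le hY0 hy.1) (by linarith [hy.2]) h8Y)
    (fun x hx => cv x (lt_of_lt_of_le hY0 hx.1) (by linarith [hx.2]))
    (fun x hx v hv => dx x (lt_of_lt_of_le hY0 hx.1) (by linarith [hx.2]) v hv)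
    (fun y hy => LC y (hsub y hy)) (fun y hy => hK0 y (hsub y hy)) hCT
    (fun y hy => by
      have h1 := anc y (hsub y hy)
      have h2 : 0 < S * y ^ 2 := by
        have : 0 < y := lt_of_lt_of_le hY0 hy.1
        positivity
      linarith)
  obtain ⟨κ, hκ1, hκ2, hκ⟩ := kap_pt hD20 hY0 hy3.1 hy3.2 hV
  refine ⟨y3, κ, hy3.1, hy3.2, hκ1, hκ2, ?_, ?_⟩
  · rw [hκ]
    linarith
  · intro z hz W hW0 hW
    have hz0 : 0 < z := by linarith [hz.1, hy3.1]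
    have hzI : z ∈ Icc Y y1 := ⟨hy3.1.trans hz.1, by linarith [hz.2, hy3.2]⟩
    exact hist_pt (Φ := Φ n) hc0 hS0 (cv z hz0 (by linarith [hzI.2]))
      (VA_eq hD1 hz0 (by linarith [hz.2, hy3.2]) h8Y) (anc z hzI) hW0 hW

/-- the numerical facts hold eventually -/
lemma ev_nm {β b₁ b₀ s d d0 Λ A : ℝ} (hβ : 1 < β) (hb₀ : 0 < b₀) (hb : 3 * b₀ < b₁)
    (hd0 : 0 < d0) (hd0b : d0 < 2 * b₀) (hdd : d0 < d) (hdb : d < 2 * b₁) (hΛ : 0 < Λ)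
    (hA1 : 1024 ≤ A) (hA2 : 25 * Λ ≤ A) (hA3 : 2 / Λ ≤ A) :
    ∀ᶠ n : ℕ in atTop, Nm n β Λ A ((n : ℝ) ^ (-b₁)) ((n : ℝ) ^ (-b₀)) ((n : ℝ) ^ (-d0))
      ((n : ℝ) ^ (-d)) ((n : ℝ) ^ (-s)) := by
  have e1 := ev_neg (show 0 < b₁ - 3 * b₀ by linarith) (show 0 < Λ / 16 by positivity)
  have e1' := ev_pow (show 0 < b₁ - b₀ by linarith) 8
  have e2 := ev_neg hb₀ (show (0 : ℝ) < 1 / 4 by norm_num)
  have e2' := ev_neg (show 0 < b₁ by linarith) (show (0 : ℝ) < 1 / 16 by norm_num)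
  have e6 := ev_neg (show 0 < d - d0 by linarith) (show (0 : ℝ) < 1 / 256 by norm_num)
  have e7 := ev_neg (show 0 < 2 * b₁ - d by linarith) (show (0 : ℝ) < 1 / 1024 by norm_num)
  have e8 := ev_neg (show 0 < d by linarith) (show 0 < min (Λ / 100) (1 / 4) / 64 by positivity)
  filter_upwards [e1, e1', e2, e2', e6, e7, e8, eventually_ge_atTop 1] with n f1 f1' f2 f2' f6 f7
    f8 hn
  have hn1 : (1 : ℝ) ≤ n := by exact_mod_cast hn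
  have hn0 : (0 : ℝ) < n := by linarith
  refine ⟨hn, hβ, hΛ, hA1, hA2, hA3, Real.rpow_pos_of_pos hn0 _, Real.rpow_pos_of_pos hn0 _,
    Real.rpow_pos_of_pos hn0 _, Real.rpow_pos_of_pos hn0 _, Real.rpow_pos_of_pos hn0 _,
    Real.rpow_le_one_of_one_le_of_nonpos hn1 (by linarith), ?_, ?_, ?_, ?_, ?_, f2', f2,
    by linarith [min_le_right (Λ / 100) (1 / 4)], by linarith [min_le_left (Λ / 100) (1 / 4)]⟩
  · rw [← Real.rpow_natCast, ← Real.rpow_mul hn0.le]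
    exact Real.rpow_le_rpow_of_exponent_le hn1 (by push_cast; linarith)
  · have h1 : (n : ℝ) ^ (-d) = (n : ℝ) ^ (-(d - d0)) * (n : ℝ) ^ (-d0) := by
      rw [← Real.rpow_add hn0]
      congr 1
      ring
    have h2 : 0 < (n : ℝ) ^ (-d0) := Real.rpow_pos_of_pos hn0 _
    rw [h1]
    nlinarith
  · have h1 : ((n : ℝ) ^ (-b₁)) ^ 2 = (n : ℝ) ^ (-(2 * b₁ - d)) * (n : ℝ) ^ (-d) := by
      rw [← Real.rpow_natCast, ← Real.rpow_mul hn0.le, ← Real.rpow_add hn0]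
      congr 1
      push_cast
      ring
    have h2 : 0 < (n : ℝ) ^ (-d) := Real.rpow_pos_of_pos hn0 _
    rw [h1]
    nlinarith
  · have h1 : (n : ℝ) ^ (-b₁) = (n : ℝ) ^ (-(b₁ - 3 * b₀)) * ((n : ℝ) ^ (-b₀)) ^ 3 := by
      rw [← Real.rpow_natCast, ← Real.rpow_mul hn0.le, ← Real.rpow_add hn0]
      congr 1
      push_cast
      ring
    have h2 : 0 < ((n : ℝ) ^ (-b₀)) ^ 3 := by positivity
    rw [h1]
    nlinarith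
  · have h1 : (n : ℝ) ^ (-b₀) = (n : ℝ) ^ (b₁ - b₀) * (n : ℝ) ^ (-b₁) := by
      rw [← Real.rpow_add hn0]
      congr 1
      ring
    have h2 : 0 < (n : ℝ) ^ (-b₁) := Real.rpow_pos_of_pos hn0 _
    rw [h1]
    exact mul_le_mul_of_nonneg_right f1' h2.le

/-- contiguity at `Y` -/
lemma hCT_of {n : ℕ} {β b₁ Λ A Y y1 D D2 S P : ℝ} {Φ : ℕ → ℝ → ℝ → ℝ}
    (h : Nm n β Λ A Y y1 D D2 S) (hY : Y = (n : ℝ) ^ (-b₁)) (ct : Ctg β Φ)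
    (f5 : (2 + β) * (4 / Λ) * (1 + Real.log n) ≤ (n : ℝ) ^ (1 - 6 * b₁))
    (h2 : |Y * (Φ n Y 0 - P) - Λ * n * Y ^ 6| ≤ Λ / 100 * n * Y ^ 6)
    (h3 : |2 * Y * (Φ n (2 * Y) 0 - P) - Λ * n * (2 * Y) ^ 6| ≤ Λ / 100 * n * (2 * Y) ^ 6) :
    Φ n Y (2 * (64 * (D2 * Y ^ 3))) - Φ n Y 0 ≤
      n * (64 * (D2 * Y ^ 3)) / β + 33 * Λ * n * Y ^ 5 := by
  obtain ⟨hn, hβ, hΛ, hA1, hA2, hA3, hY0, hy10, hD0, hD20, hS0, hD1, hy1D, hDD, hYD, h8Y, h8Yy,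
    hY16, hy14, hD4, hDL⟩ := h
  have hβ0 : 0 < β := by linarith
  have hn1 : (1 : ℝ) ≤ n := by exact_mod_cast hn
  have hn0 : (0 : ℝ) < n := by linarith
  obtain ⟨V, hV⟩ : ∃ V, V = 64 * (D2 * Y ^ 3) := ⟨_, rfl⟩
  rw [← hV]
  have hV0 : 0 < V := by rw [hV]; positivity
  have hVd : V = 64 * D2 * Y ^ 3 := by rw [hV]; ring
  have hV1 : V ≤ 1 := by
    rw [hVd]
    have h1 : Y ^ 3 ≤ 1 := pow_le_one₀ hY0.le (by linarith)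
    nlinarith
  have h1 := ct n hn Y (2 * V) hY0 (by positivity) (by nlinarith)
  have e9 : Y * n * (2 * V) / (2 * β) * (At β Φ n Y (2 * V) - 1) =
      Y * (Φ n Y (2 * V) - Φ n Y 0) - Y * (n * V / β) := by
    unfold At
    field_simp
  rw [e9] at h1
  exact ct_up hn0 hY0 hY16 hβ hΛ hVd (by positivity) hD4 hDL h1
    (small_ct hn hβ0 hΛ hY (by linarith) f5) h2 h3

/-- **The start of the sharp flow.** -/
theorem startH_of {β b₁ b₀ a s d d0 Λ : ℝ} (hβ : 1 < β) (hb₀ : 0 < b₀) (hb : 3 * b₀ < b₁)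
    (hba : b₁ < a) (ha : b₁ < 1 / 6) (hd0 : 0 < d0) (hd0b : d0 < 2 * b₀) (hdd : d0 < d)
    (hdb : d < 2 * b₁) (hΛ : 0 < Λ) {Φ K : ℕ → ℝ → ℝ → ℝ}
    (cv : ∀ n : ℕ, 1 ≤ n → ∀ x : ℝ, 0 < x → x ≤ 1 / 2 → ConcaveOn ℝ (Ici 0) (Φ n x))
    (dx : ∀ n : ℕ, 1 ≤ n → ∀ x : ℝ, 0 < x → x ≤ 1 / 2 → ∀ v : ℝ, 0 ≤ v →
      HasDerivAt (fun y => Φ n y v) (K n x v / x ^ 2) x)
    (j0 : ∀ n : ℕ, 1 ≤ n → ∀ x : ℝ, 0 < x → x ≤ 1 / 2 → ∀ v : ℝ, 0 ≤ v → Φ n x 0 ≤ Φ n x v)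
    (j1 : ∀ n : ℕ, 1 ≤ n → ∀ x : ℝ, 0 < x → x ≤ 1 / 2 → ∀ v : ℝ, 0 ≤ v →
      Φ n x v ≤ Φ n x 0 + n * v / 2)
    (mn : ∀ n : ℕ, 1 ≤ n → ∀ x y : ℝ, 0 < x → x ≤ y → y ≤ 1 / 2 → ∀ v : ℝ, 0 ≤ v →
      Φ n y v - Φ n x v ≤ K n y v * (1 / x - 1 / y))
    (ct : Ctg β Φ) (law : Law0 a Λ Φ) (hLC : LCin β b₁ b₀ d0 s Φ K) :
    StartH β b₁ d0 s d Φ := by
  obtain ⟨P, law⟩ := law
  obtain ⟨δ, hδ, hlaw⟩ := law (Λ / 100) (by positivity)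
  obtain ⟨A, hA⟩ : ∃ A, A = 1024 + 25 * Λ + 2 / Λ := ⟨_, rfl⟩
  have hp1 : 0 ≤ 2 / Λ := by positivity
  have hA1 : 1024 ≤ A := by rw [hA]; linarith
  have hA2 : 25 * Λ ≤ A := by rw [hA]; linarith
  have hA3 : 2 / Λ ≤ A := by rw [hA]; linarith
  clear hp1 hA
  have e0 := ev_nm (s := s) hβ hb₀ hb hd0 hd0b hdd hdb hΛ hA1 hA2 hA3
  have e2 := ev_neg hb₀ (show 0 < δ / 2 by positivity)
  have e3 := ev_pow (show 0 < a - b₁ by linarith) 2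
  have e5 := ev_log (show 0 < 1 - 6 * b₁ by linarith) ((2 + β) * (4 / Λ))
  unfold StartH
  filter_upwards [hlaw, hLC A (by linarith) (Λ / 10) (by positivity), e0, e2, e3, e5] with n hL gL
    hN f2 f3 f5
  clear e0 e2 e3 e5 hlaw hLC law
  have hn := hN.hn
  have hn1 : (1 : ℝ) ≤ n := by exact_mod_cast hn
  have hn0 : (0 : ℝ) < n := by linarith
  obtain ⟨Y, hY⟩ : ∃ Y, Y = (n : ℝ) ^ (-b₁) := ⟨_, rfl⟩
  obtain ⟨y1, hy1⟩ : ∃ y1, y1 = (n : ℝ) ^ (-b₀) := ⟨_, rfl⟩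
  rw [← hY] at gL hN ⊢
  rw [← hy1] at gL f2 hN
  have hY0 := hN.hY0
  have hy10 := hN.hy10
  have hy14 := hN.hy14
  have h8Yy := hN.h8Yy
  -- the law at `y` and `y / 2`
  have hhalf : ∀ y : ℝ, Y ≤ y → (n : ℝ) ^ (-a) ≤ y / 2 := by
    intro y hy
    have h1 : Y = (n : ℝ) ^ (a - b₁) * (n : ℝ) ^ (-a) := by
      rw [hY, ← Real.rpow_add hn0]
      congr 1
      ring
    have h2 : 2 * (n : ℝ) ^ (-a) ≤ Y := by
      rw [h1]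
      exact mul_le_mul_of_nonneg_right f3 (Real.rpow_nonneg hn0.le _)
    linarith
  refine startH_pt hN (cv n hn) (dx n hn)
    (fun y hy V h1 h2 h3 h4 => gL y hy.1 hy.2 V h1 h2 h3 h4) ?_ ?_
    (hCT_of hN hY ct f5 (hL Y (by linarith [hhalf Y le_rfl]) (by linarith))
      (hL (2 * Y) (by linarith [hhalf Y le_rfl]) (by linarith)))
  · intro y hy
    have hy0 : 0 < y := lt_of_lt_of_le hY0 hy.1
    exact k0_low hn0 hy0 hΛ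
      (mn n hn (y / 2) y (by linarith) (by linarith) (by linarith [hy.2]) 0 le_rfl)
      (hL y (by linarith [hhalf y hy.1]) (by linarith [hy.2]))
      (hL (y / 2) (hhalf y hy.1) (by linarith [hy.2]))
  · intro V hV0 hV
    have hYy1 : Y ≤ y1 := by linarith
    exact k1_low hn0 hy10 hΛ (dphi_low hn0 hy10 hΛ
      (hL y1 (by linarith [hhalf y1 hYy1]) (by linarith))
      (hL (y1 / 2) (hhalf y1 hYy1) (by linarith)))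
      (mn n hn (y1 / 2) y1 (by linarith) (by linarith) (by linarith) V hV0.le)
      (j0 n hn y1 hy10 (by linarith) V hV0.le)
      (j1 n hn (y1 / 2) (by linarith) (by linarith) V hV0.le) hV

end Vale.Agent.P146.H892
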