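import Vale.Agent.P146.H892.StartWM
import Vale.Agent.P146.H75.LcW
import Vale.Agent.P146.H178.Top

/-!
# P146: the start of the sharp flow from the entropy bound of the amplitude law

`startL`: one set of exponents; `start_all`: the exponents `(23 q, 10 q, 24 q)` for all small `q`.
-/

open Set Filter Topology

namespace Vale.Agent.P146.H892

open Vale.Agent.P146

/-- **The start from the entropy bound of the amplitude law.** -/
theorem startL {β b₁ b₀ s d d0 s0 k ce cl : ℝ} (hβ : 1 < β) (hb₀ : 0 < b₀) (hb : 3 * b₀ < b₁)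
    (hba : b₁ < 2 / 17) (hd0 : 0 < d0) (hd0b : d0 < 2 * b₀) (hdd : d0 < d) (hdb : d < 2 * b₁)
    (hs0 : 0 < s0) (hs : 0 < s) (hk : 0 < k) (hce : 0 < ce) (hcl : 0 ≤ cl)
    (h1 : s + s0 + 8 * b₁ < 1) (h2 : s + 2 * s0 + 2 * b₁ < k + ce)
    (h : H75.W.LCampW β b₁ b₀ d0 s s0 k ce cl) :
    H178.StartH β b₁ d0 s d fun n x v => H9.Phn n β x v :=
  startW hβ hb₀ hb hba hd0 hd0b hdd hdb
    (H75.W.lcw_of_amp hβ (H178.upK hβ) hb₀ (by linarith) (by linarith) hd0 hs0 hs hk hce hcl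
      h1 h2 h)

/-- **The start for all small `q`**, from the entropy bound of the amplitude law for all small
`q`. -/
theorem start_all {β b₁ b₀ : ℝ} (hβ : 1 < β) (hb₀ : 0 < b₀) (hb : 3 * b₀ < b₁)
    (hba : b₁ < 2 / 17)
    (h : ∃ q0 : ℝ, 0 < q0 ∧ ∀ q : ℝ, 0 < q → q ≤ q0 → ∃ s0 k ce cl : ℝ, 0 < s0 ∧ 0 < k ∧ 0 < ce ∧
      0 ≤ cl ∧ 10 * q + s0 + 8 * b₁ < 1 ∧ 10 * q + 2 * s0 + 2 * b₁ < k + ce ∧
      H75.W.LCampW β b₁ b₀ (23 * q) (10 * q) s0 k ce cl) :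
    ∃ q0 : ℝ, 0 < q0 ∧ ∀ q : ℝ, 0 < q → q ≤ q0 →
      H178.StartH β b₁ (23 * q) (10 * q) (24 * q) fun n => H9.Phn n β := by
  obtain ⟨q1, hq1, h⟩ := h
  refine ⟨min q1 (b₀ / 12), lt_min hq1 (by positivity), fun q hq hqq => ?_⟩
  have e1 : q ≤ q1 := hqq.trans (min_le_left _ _)
  have e2 : q ≤ b₀ / 12 := hqq.trans (min_le_right _ _)
  obtain ⟨s0, k, ce, cl, g1, g2, g3, g4, g5, g6, g7⟩ := h q hq e1
  exact startL hβ hb₀ hb hba (by positivity) (by linarith) (by linarith) (by linarith) g1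
    (by positivity) g2 g3 g4 g5 g6 g7

end Vale.Agent.P146.H892
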