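import Vale.Agent.P146.H892.StartH

/-!
# P146: the start of the sharp flow from a weaker bound of the entropy

`LCw`: the entropy is small if the response is small and the free energy with the field is not much
below the one of response `1`; nothing is assumed on the tangents from below. `startH_w` gives
`H892.StartH` from `LCw`.
-/

open Set Filter Topology

namespace Vale.Agent.P146.H892

open Vale.Agent.P146.H122 Vale.Agent.P146.H178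

/-- The entropy is small if the response is small; the free energy with the field is at least the
one of response `1`, up to `κ n y⁵`. -/
def LCw (β b₁ b₀ d0 s : ℝ) (Φ K : ℕ → ℝ → ℝ → ℝ) : Prop := ∀ ε : ℝ, 0 < ε → ∃ κ : ℝ, 0 < κ ∧
  ∀ A : ℝ, 1 ≤ A → ∀ᶠ n : ℕ in atTop, ∀ y : ℝ, (n : ℝ) ^ (-b₁) ≤ y → y ≤ (n : ℝ) ^ (-b₀) →
    ∀ V : ℝ, y ^ 5 ≤ A * V → V ≤ A * ((n : ℝ) ^ (-d0) * y ^ 3) →
    (2 * V ≤ A * y ^ 5 ∨ ∃ z ∈ Icc y (2 * y), 1 ≤ At β Φ n z (2 * V)) →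
    n * V / (2 * β) ≤ Φ n y V - Φ n y 0 + κ * (n * y ^ 5) →
    (∃ w : ℝ, 0 ≤ w ∧ 2 * w ≤ V ∧ Asec β Φ n y w V ≤ 1 + A * ((n : ℝ) ^ (-s) * y ^ 2)) →
    K n y V ≤ ε * (n * y ^ 6)

lemma lcw_of_lcin {β b₁ b₀ d0 s : ℝ} {Φ K : ℕ → ℝ → ℝ → ℝ} (h : LCin β b₁ b₀ d0 s Φ K) :
    LCw β b₁ b₀ d0 s Φ K := by
  intro ε hε
  refine ⟨1, one_pos, fun A hA => ?_⟩
  filter_upwards [h A hA ε hε] with n hn y h1 h2 V h3 h4 h5 _ h7
  exact hn y h1 h2 V h3 h4 h5 h7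

/-- **The anchor, one `n`**, weak form. -/
theorem anchorW_pt {Φ K : ℝ → ℝ → ℝ} {c N Λ D S A Y y1 c₁ : ℝ} (hN : 0 < N) (hΛ : 0 < Λ)
    (hc : 0 < c) (hD : 0 < D) (hS : 0 < S) (hY : 0 < Y) (hYy : Y ≤ y1)
    (hy1D : y1 ^ 2 ≤ D) (hA2 : 2 ≤ A) (hAΛ : 25 * Λ ≤ A) (hc₁ : 0 < c₁) (hcΛ : c₁ ≤ Λ / 2)
    (hAi : 1 / c₁ ≤ A)
    (cv : ∀ x ∈ Icc Y y1, ConcaveOn ℝ (Ici 0) (Φ x))
    (dx : ∀ x ∈ Icc Y y1, ∀ v, 0 ≤ v → HasDerivAt (fun y => Φ y v) (K x v / x ^ 2) x)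
    (LC : ∀ y ∈ Icc Y y1, ∀ V, y ^ 5 ≤ A * V → V ≤ A * (D * y ^ 3) →
      (2 * V ≤ A * y ^ 5 ∨ ∃ z ∈ Icc y (2 * y), 1 ≤ c * sec (Φ z) 0 (2 * V)) →
      (V ≤ c₁ * y ^ 5 ∨ 1 ≤ c * sec (Φ y) 0 V) →
      (∃ w, 0 ≤ w ∧ 2 * w ≤ V ∧ c * sec (Φ y) w V ≤ 1 + A * (S * y ^ 2)) →
      K y V ≤ Λ / 10 * (N * y ^ 6))
    (K0 : ∀ y ∈ Icc Y y1, 9 / 10 * Λ * (N * y ^ 6) ≤ K y 0)
    (K1 : ∀ V, 0 < V → V ≤ Λ / 2 * y1 ^ 5 → 1 / 2 * Λ * (N * y1 ^ 6) ≤ K y1 V) :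
    ∀ y ∈ Icc Y y1, 1 + S * y ^ 2 ≤ c * sec (Φ y) 0 (VA c₁ D y1 y) := by
  have hy10 : 0 < y1 := lt_of_lt_of_le hY hYy
  -- the range of the field
  have hlow : ∀ x y, 0 < x → x ≤ y → y ≤ y1 → x ^ 5 ≤ A * VA c₁ D y1 y := by
    intro x y hx hxy hyy
    have hy0 : 0 < y := lt_of_lt_of_le hx hxy
    have h5 : x ^ 5 ≤ y ^ 5 := pow_le_pow_left₀ hx.le hxy 5
    refine h5.trans ?_
    unfold VA
    rcases min_choice (c₁ * y1 ^ 3 * y ^ 2) (D * y ^ 3) with h | h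
    · rw [h]
      have h3 : y ^ 3 ≤ y1 ^ 3 := pow_le_pow_left₀ hy0.le hyy 3
      have h6 : 1 ≤ A * c₁ := by rwa [div_le_iff₀ hc₁] at hAi
      have h7 : y ^ 5 = y ^ 3 * y ^ 2 := by ring
      have h8 : y ^ 3 * y ^ 2 ≤ y1 ^ 3 * y ^ 2 := mul_le_mul_of_nonneg_right h3 (by positivity)
      have h9 : 0 < y1 ^ 3 * y ^ 2 := by positivity
      have e : A * (c₁ * y1 ^ 3 * y ^ 2) = A * c₁ * (y1 ^ 3 * y ^ 2) := by ring
      rw [e, h7]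
      nlinarith
    · rw [h]
      have h3 : y ^ 2 ≤ y1 ^ 2 := pow_le_pow_left₀ hy0.le hyy 2
      have h8 : 0 < y ^ 3 := by positivity
      have h9 : y ^ 5 = y ^ 2 * y ^ 3 := by ring
      have h10 : y ^ 2 * y ^ 3 ≤ D * y ^ 3 := mul_le_mul_of_nonneg_right (h3.trans hy1D) h8.le
      have h11 : 0 < D * y ^ 3 := by positivity
      rw [h9]
      nlinarith
  have hL1 : ∀ y, 0 < y → S * y ^ 2 ≤ A * (S * y ^ 2) := by
    intro y hy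
    have : 0 < S * y ^ 2 := by positivity
    nlinarith
  refine flowH (L := fun y => S * y ^ 2) (L' := fun y => S * (2 * y)) (V := VA c₁ D y1)
    (w := fun _ => 0) (ρ := 5 / 4) (η := 1) hY (by norm_num) one_pos hc cv dx ?_ ?_ ?_ ?_ ?_ ?_
    ?_ ?_
  · intro x _
    have h := (hasDerivAt_pow 2 x).const_mul S
    have e : S * (((2 : ℕ) : ℝ) * x ^ (2 - 1)) = S * (2 * x) := by norm_num
    rw [e] at h
    exact h
  · intro x hx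
    have : 0 < x := lt_of_lt_of_le hY hx.1
    positivity
  · intro x hx y _ hxy
    exact VA_mono hc₁ hD hy10 (lt_of_lt_of_le hY hx.1) hxy
  · intro x _ y _ _
    exact le_rfl
  · intro x _
    exact le_rfl
  · intro x hx
    exact VA_pos hc₁ hD hy10 (lt_of_lt_of_le hY hx.1)
  · -- the touching points
    intro x hx y hy hxy hyx hist h1 h2
    have hx0 : 0 < x := lt_of_lt_of_le hY hx.1
    have hy0 : 0 < y := lt_of_lt_of_le hx0 hxy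
    obtain ⟨V, hV⟩ : ∃ V, V = VA c₁ D y1 y := ⟨_, rfl⟩
    have hV0 : 0 < V := by rw [hV]; exact VA_pos hc₁ hD hy10 hy0
    have hVl := hlow x y hx0 hxy hy.2
    have hVu : V ≤ A * (D * x ^ 3) := by
      have h4 : V ≤ D * y ^ 3 := by rw [hV]; exact min_le_right _ _
      have h3 : y ^ 3 ≤ 125 / 64 * x ^ 3 := by
        have := pow_le_pow_left₀ hy0.le hyx 3
        linarith [show (5 / 4 * x) ^ 3 = 125 / 64 * x ^ 3 by ring]
      have h5 : D * y ^ 3 ≤ D * (125 / 64 * x ^ 3) := mul_le_mul_of_nonneg_left h3 hD.le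
      have h6 : 0 < D * x ^ 3 := by positivity
      nlinarith
    have hh : 2 * V ≤ A * x ^ 5 ∨ ∃ z ∈ Icc x (2 * x), 1 ≤ c * sec (Φ z) 0 (2 * V) := by
      rcases le_total (2 * x) y1 with h | h
      · right
        refine ⟨2 * x, ⟨by linarith, le_rfl⟩, ?_⟩
        have h3 := hist (2 * x) ⟨by linarith, h⟩
        have h4 : 2 * V ≤ VA c₁ D y1 (2 * x) := by
          rw [hV]; exact VA_two hc₁ hD hy10 hx0 hxy hyx
        have h5 : sec (Φ (2 * x)) 0 (VA c₁ D y1 (2 * x)) ≤ sec (Φ (2 * x)) 0 (2 * V) :=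
          sec_anti (cv (2 * x) ⟨by linarith [hx.1], h⟩) le_rfl le_rfl h4 (by positivity)
            (lt_of_lt_of_le (by positivity) h4)
        have h6 := mul_le_mul_of_nonneg_left h5 hc.le
        have h7 : 0 < S * (2 * x) ^ 2 := by positivity
        linarith
      · left
        have h4 : V ≤ c₁ * y1 ^ 3 * y ^ 2 := by rw [hV]; exact min_le_left _ _
        have h5 : y1 ^ 3 ≤ 8 * x ^ 3 := by
          have := pow_le_pow_left₀ hy10.le h 3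
          linarith [show (2 * x) ^ 3 = 8 * x ^ 3 by ring]
        have h6 : y ^ 2 ≤ 25 / 16 * x ^ 2 := by
          have := pow_le_pow_left₀ hy0.le hyx 2
          linarith [show (5 / 4 * x) ^ 2 = 25 / 16 * x ^ 2 by ring]
        have h7 : y1 ^ 3 * y ^ 2 ≤ 8 * x ^ 3 * (25 / 16 * x ^ 2) :=
          mul_le_mul h5 h6 (by positivity) (by positivity)
        have h8 : c₁ * (y1 ^ 3 * y ^ 2) ≤ Λ / 2 * (8 * x ^ 3 * (25 / 16 * x ^ 2)) :=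
          mul_le_mul hcΛ h7 (by positivity) (by positivity)
        have h9 : 0 < x ^ 5 := by positivity
        have h10 : 25 * Λ * x ^ 5 ≤ A * x ^ 5 := mul_le_mul_of_nonneg_right hAΛ h9.le
        linarith [show Λ / 2 * (8 * x ^ 3 * (25 / 16 * x ^ 2)) = 25 / 4 * Λ * x ^ 5 by ring,
          show c₁ * y1 ^ 3 * y ^ 2 = c₁ * (y1 ^ 3 * y ^ 2) by ring, mul_pos hΛ h9]
    rw [← hV] at h1 h2 hVl ⊢
    have h3 := LC x hx V hVl hVu hh (Or.inr (by simpa using h1))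
      ⟨0, le_rfl, by linarith, h2.trans (by linarith [hL1 x hx0])⟩
    have h4 := K0 x hx
    have h5 : 0 < Λ * (N * x ^ 6) := by positivity
    have h6 : K x V - K x 0 ≤ 0 := by linarith
    have h7 : c * ((K x V - K x 0) / (V - 0)) / x ^ 2 ≤ 0 := by
      apply div_nonpos_of_nonpos_of_nonneg _ (by positivity)
      apply mul_nonpos_of_nonneg_of_nonpos hc.le
      exact div_nonpos_of_nonpos_of_nonneg h6 (by linarith)
    refine h7.trans ?_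
    positivity
  · -- the top
    by_contra hcon
    push Not at hcon
    obtain ⟨V, hV⟩ : ∃ V, V = VA c₁ D y1 y1 := ⟨_, rfl⟩
    have hV0 : 0 < V := by rw [hV]; exact VA_pos hc₁ hD hy10 hy10
    have hVl := hlow y1 y1 hy10 le_rfl le_rfl
    have hV5 : V ≤ c₁ * y1 ^ 5 := by
      have : V ≤ c₁ * y1 ^ 3 * y1 ^ 2 := by rw [hV]; exact min_le_left _ _
      linarith [show c₁ * y1 ^ 3 * y1 ^ 2 = c₁ * y1 ^ 5 by ring]
    have hVu : V ≤ A * (D * y1 ^ 3) := by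
      have h4 : V ≤ D * y1 ^ 3 := by rw [hV]; exact min_le_right _ _
      have h6 : 0 < D * y1 ^ 3 := by positivity
      nlinarith
    rw [← hV] at hcon hVl
    have h9 : 0 < y1 ^ 5 := by positivity
    have hV6 : V ≤ Λ / 2 * y1 ^ 5 := hV5.trans (mul_le_mul_of_nonneg_right hcΛ h9.le)
    have h3 := LC y1 ⟨hYy, le_rfl⟩ V hVl hVu (Or.inl (by nlinarith)) (Or.inl hV5)
      ⟨0, le_rfl, by linarith, hcon.le.trans (by linarith [hL1 y1 hy10])⟩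
    have h4 := K1 V hV0 hV6
    have h5 : 0 < Λ * (N * y1 ^ 6) := by positivity
    linarith

/-- **The junction, one `n`**, weak form. -/
theorem junctionW_pt {Φ K : ℝ → ℝ → ℝ} {c N Λ β A D D2 S Y V c₁ : ℝ} {VB : ℝ → ℝ}
    (hN : 0 < N) (hΛ : 0 < Λ) (hc : c = 2 * β / N) (hβ : 0 < β) (hD : 0 < D) (hD2 : 0 < D2)
    (hS : 0 < S) (hY : 0 < Y) (hV : V = 64 * (D2 * Y ^ 3)) (hDD : 256 * D2 ≤ D)
    (hYD : Y ^ 2 * 1024 ≤ D2) (hA : 1024 ≤ A)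
    (hVB : ∀ y ∈ Icc Y (4 * Y), VB y = D * y ^ 3)
    (cv : ∀ x ∈ Icc Y (4 * Y), ConcaveOn ℝ (Ici 0) (Φ x))
    (dx : ∀ x ∈ Icc Y (4 * Y), ∀ v, 0 ≤ v → HasDerivAt (fun y => Φ y v) (K x v / x ^ 2) x)
    (LC : ∀ y ∈ Icc Y (4 * Y), ∀ V, y ^ 5 ≤ A * V → V ≤ A * (D * y ^ 3) →
      (2 * V ≤ A * y ^ 5 ∨ ∃ z ∈ Icc y (2 * y), 1 ≤ c * sec (Φ z) 0 (2 * V)) →
      (V ≤ c₁ * y ^ 5 ∨ 1 ≤ c * sec (Φ y) 0 V) →
      (∃ w, 0 ≤ w ∧ 2 * w ≤ V ∧ c * sec (Φ y) w V ≤ 1 + A * (S * y ^ 2)) →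
      K y V ≤ Λ / 10 * (N * y ^ 6))
    (K0 : ∀ y ∈ Icc Y (4 * Y), 9 / 10 * Λ * (N * y ^ 6) ≤ K y 0)
    (CT : Φ Y (2 * V) - Φ Y 0 ≤ N * V / β + 33 * Λ * N * Y ^ 5)
    (anc : ∀ y ∈ Icc Y (4 * Y), 1 ≤ c * sec (Φ y) 0 (VB y)) :
    ∃ y ∈ Icc Y (4 * Y), 1 + S * y ^ 2 ≤ c * sec (Φ y) V (2 * V) := by
  by_contra hcon
  push Not at hcon
  have hV0 : 0 < V := by rw [hV]; positivity
  have hc0 : 0 < c := by rw [hc]; positivity
  -- the history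
  have hist : ∀ y ∈ Icc Y (4 * Y), ∀ W, 0 < W → W ≤ 4 * V → 1 ≤ c * sec (Φ y) 0 W := by
    intro y hy W hW0 hW
    have hy0 : 0 < y := lt_of_lt_of_le hY hy.1
    have h1 : W ≤ VB y := by
      rw [hVB y hy]
      have h2 : Y ^ 3 ≤ y ^ 3 := pow_le_pow_left₀ hY.le hy.1 3
      have h3 : 0 < Y ^ 3 := by positivity
      calc W ≤ 4 * V := hW
        _ = 256 * D2 * Y ^ 3 := by rw [hV]; ring
        _ ≤ D * Y ^ 3 := mul_le_mul_of_nonneg_right hDD h3.le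
        _ ≤ D * y ^ 3 := mul_le_mul_of_nonneg_left h2 hD.le
    have h2 : sec (Φ y) 0 (VB y) ≤ sec (Φ y) 0 W :=
      sec_anti (cv y hy) le_rfl le_rfl h1 hW0 (lt_of_lt_of_le hW0 h1)
    have h3 := mul_le_mul_of_nonneg_left h2 hc0.le
    linarith [anc y hy]
  -- the entropy is small
  have hK : ∀ y ∈ Icc Y (4 * Y), K y (2 * V) ≤ Λ / 10 * (N * y ^ 6) := by
    intro y hy
    have hy0 : 0 < y := lt_of_lt_of_le hY hy.1
    have h3 : 0 < D2 * Y ^ 3 := by positivity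
    have hy5 : y ^ 5 ≤ 1024 * Y ^ 5 := by
      have := pow_le_pow_left₀ hy0.le hy.2 5
      linarith [show (4 * Y) ^ 5 = 1024 * Y ^ 5 by ring]
    refine LC y hy (2 * V) ?_ ?_ ?_ ?_ ?_
    · have h4 : 1024 * Y ^ 5 ≤ D2 * Y ^ 3 := by
        have : 1024 * Y ^ 5 = Y ^ 2 * 1024 * Y ^ 3 := by ring
        rw [this]
        exact mul_le_mul_of_nonneg_right hYD (by positivity)
      have h5 : D2 * Y ^ 3 ≤ A * (2 * V) := by
        rw [hV]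
        nlinarith
      linarith
    · have h4 : 2 * V ≤ D * Y ^ 3 := by
        have : 2 * V = 128 * D2 * Y ^ 3 := by rw [hV]; ring
        rw [this]
        exact mul_le_mul_of_nonneg_right (by linarith) (by positivity)
      have h5 : D * Y ^ 3 ≤ D * y ^ 3 :=
        mul_le_mul_of_nonneg_left (pow_le_pow_left₀ hY.le hy.1 3) hD.le
      have h6 : 0 < D * y ^ 3 := by positivity
      nlinarith
    · right
      exact ⟨y, ⟨le_rfl, by linarith⟩, hist y hy (2 * (2 * V)) (by positivity) (by linarith)⟩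
    · exact Or.inr (hist y hy (2 * V) (by positivity) (by linarith))
    · refine ⟨V, hV0.le, le_rfl, (hcon y hy).le.trans ?_⟩
      have : 0 < S * y ^ 2 := by positivity
      nlinarith
  have hd := drop (Φ := Φ) (K := K) (W := 2 * V) (Y0 := Y) (Y1 := 4 * Y)
    (g0 := N * V / β + 33 * Λ * N * Y ^ 5) (q := Λ / 10 * N) hY
    (fun y hy => dx y hy (2 * V) (by positivity)) (fun y hy => dx y hy 0 le_rfl) CT ?_
  · have h1 := hd (4 * Y) ⟨by linarith, le_rfl⟩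
    have h2 := hist (4 * Y) ⟨by linarith, le_rfl⟩ (2 * V) (by positivity) (by linarith)
    have h3 : c * sec (Φ (4 * Y)) 0 (2 * V) = β / (N * V) * (Φ (4 * Y) (2 * V) - Φ (4 * Y) 0) := by
      rw [hc]
      unfold sec
      rw [sub_zero]
      field_simp
    rw [h3] at h2
    have h4 : N * V / β ≤ Φ (4 * Y) (2 * V) - Φ (4 * Y) 0 := by
      have h5 := mul_le_mul_of_nonneg_left h2 (by positivity : 0 ≤ N * V / β)
      have e : N * V / β * (β / (N * V) * (Φ (4 * Y) (2 * V) - Φ (4 * Y) 0)) =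
          Φ (4 * Y) (2 * V) - Φ (4 * Y) 0 := by
        field_simp
      rw [e] at h5
      linarith
    have h5 : 0 < Λ * N * Y ^ 5 := by positivity
    have e5 : Λ / 10 * N * ((4 * Y) ^ 5 - Y ^ 5) = 1023 / 10 * (Λ * N * Y ^ 5) := by ring
    rw [e5] at h1
    linarith
  · intro y hy _
    have hyI : y ∈ Icc Y (4 * Y) := ⟨hy.1, hy.2.le⟩
    have hy0 : 0 < y := lt_of_lt_of_le hY hy.1
    have h1 := hK y hyI
    have h2 := K0 y hyI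
    have h3 : 0 < Λ * (N * y ^ 6) := by positivity
    linarith [show 5 * (Λ / 10 * N) * y ^ 6 = 1 / 2 * (Λ * (N * y ^ 6)) by ring]

/-- the numerical facts at one `n`, with the constant `c₁` of the top -/
structure NmW (n : ℕ) (β Λ A Y y1 D D2 S c₁ : ℝ) : Prop extends Nm n β Λ A Y y1 D D2 S where
  hc₁ : 0 < c₁
  hcΛ : c₁ ≤ Λ / 2
  hA4 : 1 / c₁ ≤ A
  h8c : 8 * Y ≤ c₁ * y1 ^ 3

/-- the start at one `n`, weak form -/
lemma startW_pt {n : ℕ} {β Λ A Y y1 D D2 S c₁ : ℝ} {Φ K : ℕ → ℝ → ℝ → ℝ}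
    (h : NmW n β Λ A Y y1 D D2 S c₁)
    (cv : ∀ x : ℝ, 0 < x → x ≤ 1 / 2 → ConcaveOn ℝ (Ici 0) (Φ n x))
    (dx : ∀ x : ℝ, 0 < x → x ≤ 1 / 2 → ∀ v : ℝ, 0 ≤ v →
      HasDerivAt (fun y => Φ n y v) (K n x v / x ^ 2) x)
    (LC : ∀ y ∈ Icc Y y1, ∀ V, y ^ 5 ≤ A * V → V ≤ A * (D * y ^ 3) →
      (2 * V ≤ A * y ^ 5 ∨ ∃ z ∈ Icc y (2 * y), 1 ≤ At β Φ n z (2 * V)) →
      (V ≤ c₁ * y ^ 5 ∨ 1 ≤ At β Φ n y V) →
      (∃ w, 0 ≤ w ∧ 2 * w ≤ V ∧ Asec β Φ n y w V ≤ 1 + A * (S * y ^ 2)) →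
      K n y V ≤ Λ / 10 * (n * y ^ 6))
    (hK0 : ∀ y ∈ Icc Y y1, 9 / 10 * Λ * (n * y ^ 6) ≤ K n y 0)
    (hK1 : ∀ V, 0 < V → V ≤ Λ / 2 * y1 ^ 5 → 1 / 2 * Λ * (n * y1 ^ 6) ≤ K n y1 V)
    (hCT : Φ n Y (2 * (64 * (D2 * Y ^ 3))) - Φ n Y 0 ≤
      n * (64 * (D2 * Y ^ 3)) / β + 33 * Λ * n * Y ^ 5) :
    ∃ y3 κ : ℝ, Y ≤ y3 ∧ y3 ≤ 4 * Y ∧ 1 ≤ κ ∧ κ ≤ 64 ∧
      S * y3 ^ 2 ≤ Asec β Φ n y3 (κ * (D2 * y3 ^ 3)) (2 * (κ * (D2 * y3 ^ 3))) - 1 ∧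
      ∀ z ∈ Icc y3 (2 * y3), ∀ W : ℝ, 0 < W → W ≤ D * z ^ 3 → 1 ≤ At β Φ n z W := by
  have hc₁ := h.hc₁
  have hcΛ := h.hcΛ
  have hA4 := h.hA4
  have h8c := h.h8c
  obtain ⟨hn, hβ, hΛ, hA1, hA2, hA3, hY0, hy10, hD0, hD20, hS0, hD1, hy1D, hDD, hYD, h8Y, h8Yy,
    hY16, hy14, hD4, hDL⟩ := h.toNm
  have hβ0 : 0 < β := by linarith
  have hn1 : (1 : ℝ) ≤ n := by exact_mod_cast hn
  have hn0 : (0 : ℝ) < n := by linarith
  have hYy1 : Y ≤ y1 := by linarith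
  obtain ⟨V, hV⟩ : ∃ V, V = 64 * (D2 * Y ^ 3) := ⟨_, rfl⟩
  obtain ⟨c, hc⟩ : ∃ c, c = 2 * β / (n : ℝ) := ⟨_, rfl⟩
  have hc0 : 0 < c := by rw [hc]; positivity
  have eA : ∀ z v, At β Φ n z v = c * sec (Φ n z) 0 v := by
    intro z v
    rw [At_eq, hc]
    rfl
  have eS : ∀ z w v, Asec β Φ n z w v = c * sec (Φ n z) w v := by
    intro z w v
    rw [hc]
    rfl
  simp only [eA, eS] at LC ⊢
  rw [← hV] at hCT
  have anc := anchorW_pt (Φ := Φ n) (K := K n) (c := c) (N := (n : ℝ)) (Λ := Λ) (D := D) (S := S)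
    (A := A) (Y := Y) (y1 := y1) hn0 hΛ hc0 hD0 hS0 hY0 hYy1 hy1D (by linarith) hA2 hc₁ hcΛ hA4
    (fun x hx => cv x (lt_of_lt_of_le hY0 hx.1) (by linarith [hx.2]))
    (fun x hx v hv => dx x (lt_of_lt_of_le hY0 hx.1) (by linarith [hx.2]) v hv) LC hK0 hK1
  have hsub : ∀ x ∈ Icc Y (4 * Y), x ∈ Icc Y y1 := fun x hx => ⟨hx.1, by linarith [hx.2]⟩
  obtain ⟨y3, hy3, h3⟩ := junctionW_pt (Φ := Φ n) (K := K n) (c := c) (N := (n : ℝ)) (Λ := Λ)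
    (β := β) (A := A) (D := D) (D2 := D2) (S := S) (Y := Y) (V := V) (c₁ := c₁)
    (VB := VA c₁ D y1) hn0 hΛ hc hβ0 hD0 hD20 hS0 hY0 hV hDD hYD hA1
    (fun y hy => VA_eq hD1 (lt_of_lt_of_le hY0 hy.1) (by linarith [hy.2]) h8c)
    (fun x hx => cv x (lt_of_lt_of_le hY0 hx.1) (by linarith [hx.2]))
    (fun x hx v hv => dx x (lt_of_lt_of_le hY0 hx.1) (by linarith [hx.2]) v hv)
    (fun y hy => LC y (hsub y hy)) (fun y hy => hK0 y (hsub y hy)) hCT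
    (fun y hy => by
      have h1 := anc y (hsub y hy)
      have h2 : 0 < S * y ^ 2 := by
        have : 0 < y := lt_of_lt_of_le hY0 hy.1
        positivity
      linarith)
  obtain ⟨κ, hκ1, hκ2, hκ⟩ := kap_pt hD20 hY0 hy3.1 hy3.2 hV
  refine ⟨y3, κ, hy3.1, hy3.2, hκ1, hκ2, ?_, ?_⟩
  · rw [hκ]
    linarith
  · intro z hz W hW0 hW
    have hz0 : 0 < z := by linarith [hz.1, hy3.1]
    have hzI : z ∈ Icc Y y1 := ⟨hy3.1.trans hz.1, by linarith [hz.2, hy3.2]⟩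
    exact hist_pt (Φ := Φ n) hc0 hS0 (cv z hz0 (by linarith [hzI.2]))
      (VA_eq hD1 hz0 (by linarith [hz.2, hy3.2]) h8c) (anc z hzI) hW0 hW

/-- **The start of the sharp flow**, from the weak form. -/
theorem startH_w {β b₁ b₀ a s d d0 Λ : ℝ} (hβ : 1 < β) (hb₀ : 0 < b₀) (hb : 3 * b₀ < b₁)
    (hba : b₁ < a) (ha : b₁ < 1 / 6) (hd0 : 0 < d0) (hd0b : d0 < 2 * b₀) (hdd : d0 < d)
    (hdb : d < 2 * b₁) (hΛ : 0 < Λ) {Φ K : ℕ → ℝ → ℝ → ℝ}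
    (cv : ∀ n : ℕ, 1 ≤ n → ∀ x : ℝ, 0 < x → x ≤ 1 / 2 → ConcaveOn ℝ (Ici 0) (Φ n x))
    (dx : ∀ n : ℕ, 1 ≤ n → ∀ x : ℝ, 0 < x → x ≤ 1 / 2 → ∀ v : ℝ, 0 ≤ v →
      HasDerivAt (fun y => Φ n y v) (K n x v / x ^ 2) x)
    (j0 : ∀ n : ℕ, 1 ≤ n → ∀ x : ℝ, 0 < x → x ≤ 1 / 2 → ∀ v : ℝ, 0 ≤ v → Φ n x 0 ≤ Φ n x v)
    (j1 : ∀ n : ℕ, 1 ≤ n → ∀ x : ℝ, 0 < x → x ≤ 1 / 2 → ∀ v : ℝ, 0 ≤ v →
      Φ n x v ≤ Φ n x 0 + n * v / 2)
    (mn : ∀ n : ℕ, 1 ≤ n → ∀ x y : ℝ, 0 < x → x ≤ y → y ≤ 1 / 2 → ∀ v : ℝ, 0 ≤ v →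
      Φ n y v - Φ n x v ≤ K n y v * (1 / x - 1 / y))
    (ct : Ctg β Φ) (law : Law0 a Λ Φ) (hLC : LCw β b₁ b₀ d0 s Φ K) :
    StartH β b₁ d0 s d Φ := by
  obtain ⟨P, law⟩ := law
  obtain ⟨δ, hδ, hlaw⟩ := law (Λ / 100) (by positivity)
  obtain ⟨k0, hk0, hLC⟩ := hLC (Λ / 10) (by positivity)
  obtain ⟨c₁, hc₁e⟩ : ∃ c₁, c₁ = min k0 (Λ / 2) := ⟨_, rfl⟩
  have hc₁ : 0 < c₁ := by rw [hc₁e]; exact lt_min hk0 (by positivity)
  have hc₁k : c₁ ≤ k0 := by rw [hc₁e]; exact min_le_left _ _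
  have hc₁Λ : c₁ ≤ Λ / 2 := by rw [hc₁e]; exact min_le_right _ _
  clear hc₁e
  obtain ⟨A, hA⟩ : ∃ A, A = 1024 + 25 * Λ + 2 / Λ + 1 / c₁ := ⟨_, rfl⟩
  have hp1 : 0 ≤ 2 / Λ := by positivity
  have hp2 : 0 ≤ 1 / c₁ := by positivity
  have hA1 : 1024 ≤ A := by rw [hA]; linarith
  have hA2 : 25 * Λ ≤ A := by rw [hA]; linarith
  have hA3 : 2 / Λ ≤ A := by rw [hA]; linarith
  have hA4 : 1 / c₁ ≤ A := by rw [hA]; linarith
  clear hp1 hp2 hA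
  have e0 := ev_nm (s := s) hβ hb₀ hb hd0 hd0b hdd hdb hΛ hA1 hA2 hA3
  have e1 := ev_neg (show 0 < b₁ - 3 * b₀ by linarith) (show 0 < c₁ / 8 by positivity)
  have e2 := ev_neg hb₀ (show 0 < δ / 2 by positivity)
  have e3 := ev_pow (show 0 < a - b₁ by linarith) 2
  have e5 := ev_log (show 0 < 1 - 6 * b₁ by linarith) ((2 + β) * (4 / Λ))
  unfold StartH
  filter_upwards [hlaw, hLC A (by linarith), e0, e1, e2, e3, e5] with n hL gL hN f1 f2 f3 f5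
  clear e0 e1 e2 e3 e5 hlaw hLC law
  have hn := hN.hn
  have hn1 : (1 : ℝ) ≤ n := by exact_mod_cast hn
  have hn0 : (0 : ℝ) < n := by linarith
  have h8c : 8 * (n : ℝ) ^ (-b₁) ≤ c₁ * ((n : ℝ) ^ (-b₀)) ^ 3 := by
    have h1 : (n : ℝ) ^ (-b₁) = (n : ℝ) ^ (-(b₁ - 3 * b₀)) * ((n : ℝ) ^ (-b₀)) ^ 3 := by
      rw [← Real.rpow_natCast, ← Real.rpow_mul hn0.le, ← Real.rpow_add hn0]
      congr 1
      push_cast
      ring
    have h2 : 0 < ((n : ℝ) ^ (-b₀)) ^ 3 := by positivity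
    rw [h1]
    nlinarith
  obtain ⟨Y, hY⟩ : ∃ Y, Y = (n : ℝ) ^ (-b₁) := ⟨_, rfl⟩
  obtain ⟨y1, hy1⟩ : ∃ y1, y1 = (n : ℝ) ^ (-b₀) := ⟨_, rfl⟩
  rw [← hY] at gL hN h8c ⊢
  rw [← hy1] at gL f2 hN h8c
  have hY0 := hN.hY0
  have hy10 := hN.hy10
  have hy14 := hN.hy14
  have h8Yy := hN.h8Yy
  -- the law at `y` and `y / 2`
  have hhalf : ∀ y : ℝ, Y ≤ y → (n : ℝ) ^ (-a) ≤ y / 2 := by
    intro y hy
    have h1 : Y = (n : ℝ) ^ (a - b₁) * (n : ℝ) ^ (-a) := by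
      rw [hY, ← Real.rpow_add hn0]
      congr 1
      ring
    have h2 : 2 * (n : ℝ) ^ (-a) ≤ Y := by
      rw [h1]
      exact mul_le_mul_of_nonneg_right f3 (Real.rpow_nonneg hn0.le _)
    linarith
  have hNW : NmW n β Λ A Y y1 ((n : ℝ) ^ (-d0)) ((n : ℝ) ^ (-d)) ((n : ℝ) ^ (-s)) c₁ :=
    { toNm := hN, hc₁ := hc₁, hcΛ := hc₁Λ, hA4 := hA4, h8c := h8c }
  refine startW_pt hNW (cv n hn) (dx n hn) ?_ ?_ ?_
    (hCT_of hN hY ct f5 (hL Y (by linarith [hhalf Y le_rfl]) (by linarith))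
      (hL (2 * Y) (by linarith [hhalf Y le_rfl]) (by linarith)))
  · intro y hy V h1 h2 h3 h4 h5
    refine gL y hy.1 hy.2 V h1 h2 h3 ?_ h5
    have hy0 : 0 < y := lt_of_lt_of_le hY0 hy.1
    have hV0 : 0 < V := by
      have h6 : 0 < y ^ 5 := by positivity
      exact (mul_pos_iff_of_pos_left (show 0 < A by linarith)).1 (lt_of_lt_of_le h6 h1)
    have h7 : 0 < (n : ℝ) * y ^ 5 := by positivity
    rcases h4 with h4 | h4
    · have h8 := j0 n hn y hy0 (by linarith [hy.2]) V hV0.le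
      have h9 : n * V / (2 * β) ≤ k0 * (n * y ^ 5) := by
        rw [div_le_iff₀ (by linarith)]
        calc n * V ≤ n * (c₁ * y ^ 5) := mul_le_mul_of_nonneg_left h4 hn0.le
          _ ≤ n * (k0 * y ^ 5) := by gcongr
          _ = k0 * (n * y ^ 5) * 1 := by ring
          _ ≤ k0 * (n * y ^ 5) * (2 * β) :=
              mul_le_mul_of_nonneg_left (by linarith) (by positivity)
      linarith
    · have h8 : n * V / (2 * β) ≤ Φ n y V - Φ n y 0 := by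
        have e : At β Φ n y V = 2 * β / (n * V) * (Φ n y V - Φ n y 0) := by
          unfold At
          ring
        rw [e] at h4
        have h9 : 0 < n * V / (2 * β) := by positivity
        have h10 := mul_le_mul_of_nonneg_left h4 h9.le
        have e2 : n * V / (2 * β) * (2 * β / (n * V) * (Φ n y V - Φ n y 0)) =
            Φ n y V - Φ n y 0 := by
          have : (β : ℝ) ≠ 0 := by linarith
          field_simp
        rw [e2, mul_one] at h10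
        exact h10
      have h9 : 0 < k0 * (n * y ^ 5) := by positivity
      linarith
  · intro y hy
    have hy0 : 0 < y := lt_of_lt_of_le hY0 hy.1
    exact k0_low hn0 hy0 hΛ
      (mn n hn (y / 2) y (by linarith) (by linarith) (by linarith [hy.2]) 0 le_rfl)
      (hL y (by linarith [hhalf y hy.1]) (by linarith [hy.2]))
      (hL (y / 2) (hhalf y hy.1) (by linarith [hy.2]))
  · intro V hV0 hV
    have hYy1 : Y ≤ y1 := by linarith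
    exact k1_low hn0 hy10 hΛ (dphi_low hn0 hy10 hΛ
      (hL y1 (by linarith [hhalf y1 hYy1]) (by linarith))
      (hL (y1 / 2) (hhalf y1 hYy1) (by linarith)))
      (mn n hn (y1 / 2) y1 (by linarith) (by linarith) (by linarith) V hV0.le)
      (j0 n hn y1 hy10 (by linarith) V hV0.le)
      (j1 n hn (y1 / 2) (by linarith) (by linarith) V hV0.le) hV

end Vale.Agent.P146.H892
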