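import Vale.Agent.P146.H892.StartW
import Vale.Agent.P146.H892.StartM

/-!
# P146: the start of the sharp flow for the Sherrington-Kirkpatrick model, weak form

`startW`: the only hypothesis is `LCw`.
-/

open Set Filter Topology MeasureTheory

namespace Vale.Agent.P146.H892

open Vale.Agent.P146 Vale.Agent.P146.H122

/-- **The start for the Sherrington-Kirkpatrick model** from the weak bound of the entropy. -/
theorem startW {β b₁ b₀ s d d0 : ℝ} (hβ : 1 < β) (hb₀ : 0 < b₀) (hb : 3 * b₀ < b₁)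
    (hba : b₁ < 2 / 17) (hd0 : 0 < d0) (hd0b : d0 < 2 * b₀) (hdd : d0 < d) (hdb : d < 2 * b₁)
    (hLC : LCw β b₁ b₀ d0 s (fun n x v => H9.Phn n β x v) fun n x v => H9.KV n β x v) :
    H178.StartH β b₁ d0 s d fun n x v => H9.Phn n β x v := by
  obtain ⟨Λ, hΛ, hlaw⟩ := law0_sk hβ
  have hβ0 : 0 < β := by linarith
  exact startH_w (a := (b₁ + 2 / 17) / 2) hβ hb₀ hb (by linarith) (by linarith) hd0 hd0b hdd hdb
    hΛ (fun n _ x hx hx1 => H320.Conc.Phn_conc n β hx (by linarith))
    (fun n _ x hx _ v _ => H9.hasDerivAt_Phn n β v hx)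
    (fun n _ x hx _ v _ => H9.Phn_zero_le n β v hx.le)
    (fun n _ x hx hx1 v hv => H9.Phn_le n β hx (by linarith) hv)
    (fun n _ x y hx hxy _ v _ => (H9.Phn_sub_bd n β v hx hxy).2)
    (ctg_sk hβ0) (hlaw _ (by linarith)) hLC

end Vale.Agent.P146.H892
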